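import Vale.Agent.P057TP.Ops
import Vale.Agent.P057MA.Defs
import Vale.Agent.P057G.Ms6
import Vale.Agent.P057DP.Pd1

/-!
Extra coordinates, kernel states, and the statements of symmetrisation and integration.
-/

set_option linter.all false

open Matrix Finset
open Vale.Agent.P267.H775 Vale.Agent.P057G Vale.Agent.P057PC Vale.Agent.P057TP
open Vale.Agent.P057MA (On)
open Vale.Agent.P057DP (thK)

namespace Vale.Agent.P057SY

noncomputable section

/-- extra integer coordinates over a system with labels `ι`: faces, tiers, Gram matrix, centres -/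
structure Xt (V ι E : Type) where
  fc : E → Finset V
  tr : E → ℕ
  G : Matrix E E ℝ
  g : (ι ⊕ E → ℝ) → E → ℝ

section ms

variable {V ι E : Type} [DecidableEq V] [Fintype ι] [DecidableEq ι] [Fintype E] [DecidableEq E]

/-- the system with the extra coordinates on top -/
def xt (S : MS V ι) (X : Xt V ι E) : MS V (ι ⊕ E) where
  fc := Sum.elim S.fc X.fc
  lv := Sum.elim S.lv fun e => univ.sup S.lv + 1 + X.tr e
  G := fromBlocks S.G 0 0 X.G
  p x := Sum.elim (S.p (x ∘ Sum.inl)) (X.g x)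

/-- admissible extra coordinates: local and multi-affine centres -/
structure Xt.Ok (S : MS V ι) (X : Xt V ι E) : Prop where
  ne : ∀ e, (X.fc e).Nonempty
  pd : X.G.PosDef
  ort : ∀ e e', X.G e e' ≠ 0 → X.fc e = X.fc e' ∧ X.tr e = X.tr e'
  loc : ∀ e x x', (∀ i, S.fc i ⊆ X.fc e → x (Sum.inl i) = x' (Sum.inl i)) →
    (∀ e', X.fc e' ⊆ X.fc e → X.tr e' < X.tr e → x (Sum.inr e') = x' (Sum.inr e')) →
    X.g x e = X.g x' e
  aff : ∀ v e, Aff ((xt S X).st v) fun x => X.g x e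

/-- the size of the extra coordinates: `τ` tiers, complexity `Y` -/
structure Xt.Sz (X : Xt V ι E) (τ : ℕ) (Y : ℝ) : Prop where
  tr : ∀ e, X.tr e < τ
  card : (Fintype.card E : ℝ) ≤ Y
  sep : ∀ k : E → ℤ, k ≠ 0 → 1 ≤ qq X.G (toR k)
  cx : th X.G⁻¹ 0 ≤ Real.exp Y

end ms

variable {C W : Type} [Fintype W] [DecidableEq W]

/-- the face of a label; `none` is the special vertex -/
def fo {T : Tow} {cl : W → C} {m : ℕ} (l : Lb T cl Unit m) : Finset (Option W) :=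
  if l.bs = none then l.fc.image some else insert none (l.fc.image some)

/-- the labels with their faces and levels -/
def sk (T : Tow) (cl : W → C) (m : ℕ) : MS (Option W) (Lb T cl Unit m) :=
  ⟨fo, fun l => T.lv l.cd, Gam T cl Unit m, fun _ _ => 0⟩

/-- a function of the labels on the faces of `W` only -/
def WO {T : Tow} {cl : W → C} {m : ℕ} {α : Type} (u : (Lb T cl Unit m → ℤ) → α) : Prop :=
  ∀ z z', (∀ l, l.bs = none → z l = z' l) → u z = u z'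

/-- a multi-affine function of the pure labels and of the extra coordinates, linear in the
special vertex, all of whose terms live on partial transversals of less than `b` vertices -/
structure Dg {T : Tow} {cl : W → C} {m : ℕ} {E : Type} [Fintype E] [DecidableEq E]
    (X : Xt (Option W) (Lb T cl Unit m) E) (b : ℕ) (φ : (Lb T cl Unit m ⊕ E → ℝ) → ℝ) : Prop where
  on : ∀ x x', (∀ l, l.Pure → x (Sum.inl l) = x' (Sum.inl l)) →
    (∀ e, x (Sum.inr e) = x' (Sum.inr e)) → φ x = φ x'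
  aff : ∀ v, Aff ((xt (sk T cl m) X).st v) φ
  lin : Lin ((xt (sk T cl m) X).st none) φ
  deg : ∀ F : Finset W, (b ≤ F.card ∨ ¬ Set.InjOn cl F) →
    ∀ x, (xt (sk T cl m) X).alt (F.image some) φ x = 0

/-- labels together with values of the extra coordinates -/
def jn {ι E : Type} (z : ι → ℤ) (n : E → ℤ) : ι ⊕ E → ℝ := Sum.elim (toR z) (toR n)

/-- the kernel state of degree `b`: a weight on the faces of `W`, a positive kernel in finitely
many multi-affine forms through the special vertex, and the excess of the product over the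
cells -/
def KS {T : Tow} (Z : Sys T W Unit) (cl : W → C) (m : ℕ) (f : ℤ → ℝ) (θ : ℝ) (b τ : ℕ)
    (Y B κ σ : ℝ) : Prop :=
  ∃ (E J : Type) (_ : Fintype E) (_ : DecidableEq E) (_ : Fintype J) (_ : DecidableEq J)
    (X : Xt (Option W) (Lb T cl Unit m) E) (Φ : (Lb T cl Unit m ⊕ E → ℝ) → J → ℝ)
    (Gk : Matrix J J ℝ) (K : Submodule ℤ (J → ℤ)) (u : (Lb T cl Unit m → ℤ) → ℝ)
    (n : (Lb T cl Unit m → ℤ) → E → ℤ) (γ : (Lb T cl Unit m → ℤ) → J → ℝ),
    X.Ok (sk T cl m) ∧ X.Sz τ Y ∧ (∀ e, none ∉ X.fc e) ∧ (Fintype.card J : ℝ) ≤ Y ∧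
    (∀ j, Dg X b fun x => Φ x j) ∧ Gk.PosDef ∧ (∀ j, Gk j j ≤ Real.exp Y) ∧
    WO u ∧ WO n ∧ WO γ ∧ (∀ z, 0 ≤ u z ∧ u z ≤ 1) ∧
    (∀ z, u z ≠ 0 → qq X.G (toR (n z) - X.g (jn z (n z))) ≤ Real.exp Y) ∧
    Z.St cl m (fun z => u z * (thK Gk K (Φ (jn z (n z)) - γ z) / th Gk 0) * Z.Ex0 cl m f θ z)
      B κ σ

/-- one round: the degree of the kernel state drops -/
def ROUND (s : ℕ) : Prop :=
  ∀ τ : ℕ, ∃ c τ' : ℕ, ∀ (N : ℝ) (P : ℕ → ℝ) (T : Tow) (C W : Type) [Fintype W] [DecidableEq W]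
    (cl : W → C) (m b : ℕ) (Z : Sys T W Unit) (f : ℤ → ℝ) (θ B κ σ : ℝ),
    Lad s N c P → T.Ok s N → T.Cx N P → Z.Ok → b + 1 < m → m ≤ s + 1 → Unit01 f → 0 ≤ θ → θ ≤ 4 →
    (Fintype.card W : ℝ) ≤ P m → ((cells cl).card : ℝ) ≤ P m → B ≤ Real.exp (P m) →
    Real.exp (-P m) ≤ κ → Real.exp (-P 0) ≤ σ → KS Z cl m f θ (b + 1) τ (P m) B κ σ →
    ∃ (T' : Tow) (Z' : Sys T' W Unit) (B' κ' σ' : ℝ), T'.Ok s N ∧ Z'.Ok ∧ Up m T' T ∧
      T.Grow N T' (fun e => P e ^ c) ∧ B' ≤ Real.exp (P m ^ c) ∧ Real.exp (-P m ^ c) ≤ κ' ∧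
      Real.exp (-P 1 ^ c) ≤ σ' ∧ KS Z' cl m f θ b τ' (P m ^ c) B' κ' σ'

/-- all rounds: from a kernel state to the state before the copies are taken -/
def SYI (s : ℕ) : Prop :=
  ∀ τ : ℕ, ∃ c : ℕ, ∀ (N : ℝ) (P : ℕ → ℝ) (T : Tow) (C W : Type) [Fintype W] [DecidableEq W]
    (cl : W → C) (m b : ℕ) (Z : Sys T W Unit) (f : ℤ → ℝ) (θ B κ σ : ℝ),
    Lad s N c P → T.Ok s N → T.Cx N P → Z.Ok → b < m → m ≤ s + 1 → Unit01 f → 0 ≤ θ → θ ≤ 4 →
    (Fintype.card W : ℝ) ≤ P m → ((cells cl).card : ℝ) ≤ P m → B ≤ Real.exp (P m) →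
    Real.exp (-P m) ≤ κ → Real.exp (-P 0) ≤ σ → KS Z cl m f θ b τ (P m) B κ σ →
    ∃ (T' : Tow) (Z' : Sys T' W Unit) (B' κ' σ' : ℝ), T'.Ok s N ∧ Z'.Ok ∧ Up m T' T ∧
      T.Grow N T' (fun e => P e ^ c) ∧ B' ≤ Real.exp (P m ^ c) ∧ Real.exp (-P m ^ c) ≤ κ' ∧
      Real.exp (-P 1 ^ c) ≤ σ' ∧ Z'.SP cl m f θ B' κ' σ'

end

end Vale.Agent.P057SY
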