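import Vale.Agent.P057SY.Plan
import Vale.Agent.P057CO.Xt
import Vale.Agent.P057PL.Pull
import Vale.Agent.P057PC.Del

/-!
Alternating sums under substitutions, components, wide Gaussians, centred symbols.
-/

set_option linter.all false

open Matrix Finset
open scoped Real
open Vale.Agent.P267.H775 Vale.Agent.P057G Vale.Agent.P057PC Vale.Agent.P057TP
open Vale.Agent.P057MA (On)
open Vale.Agent.P057TE (SL sym ez)

namespace Vale.Agent.P057SY

noncomputable section

section alt

variable {V V' ι κ : Type} [DecidableEq V] [DecidableEq V'] [Fintype ι] [DecidableEq ι]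
  [Fintype κ] [DecidableEq κ] {S : MS V ι} {S' : MS V' κ}

theorem mix_kill {α : Type} [Zero α] (r s : Finset ι) (y : ι → α) :
    mix r 0 (mix s 0 y) = mix s 0 (mix r 0 y) := by
  funext i; simp only [mix]; split_ifs <;> rfl

theorem alt_insert' {v : V} {I : Finset V} (hv : v ∉ I) (θ : (ι → ℝ) → ℝ) :
    S.alt (insert v I) θ = S.alt I fun z => θ z - θ (mix (S.st v) 0 z) := by
  funext z
  rw [MS.alt_insert hv]
  simp only [MS.alt, MS.kz, mul_sub, sum_sub_distrib, mix_kill (S.st v)]

theorem alt_sub (I : Finset V) (f g : (ι → ℝ) → ℝ) (z : ι → ℝ) :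
    S.alt I (fun z => f z - g z) z = S.alt I f z - S.alt I g z := by
  simp only [MS.alt, mul_sub, sum_sub_distrib]

theorem alt_add (I : Finset V) (f g : (ι → ℝ) → ℝ) (z : ι → ℝ) :
    S.alt I (fun z => f z + g z) z = S.alt I f z + S.alt I g z := by
  simp only [MS.alt, mul_add, sum_add_distrib]

theorem alt_mul (I : Finset V) (c : ℝ) (f : (ι → ℝ) → ℝ) (z : ι → ℝ) :
    S.alt I (fun z => c * f z) z = c * S.alt I f z := by
  simp only [MS.alt, mul_sum, mul_left_comm c]

theorem On.alt {q : Finset ι} {f : (ι → ℝ) → ℝ} (h : On q f) (I : Finset V) : On q (S.alt I f) :=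
  fun z z' hz => sum_congr rfl fun U _ => congrArg (_ * ·) (h _ _ fun i hi => by
    simp only [MS.kz, mix, hz i hi])

/-- the alternating sum of a composition with a map that respects the vertices -/
theorem alt_map {e : V → V'} {F : Finset V} (he : Set.InjOn e F) {P : (κ → ℝ) → ι → ℝ}
    (hP : ∀ v ∈ F, ∀ y, P (mix (S'.st (e v)) 0 y) = mix (S.st v) 0 (P y)) (f : (ι → ℝ) → ℝ)
    (x : κ → ℝ) : S'.alt (F.image e) (fun x => f (P x)) x = S.alt F f (P x) := by
  induction F using Finset.induction_on generalizing x with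
  | empty => simp only [image_empty, MS.alt_empty]
  | insert v F hv ih =>
    have h1 : e v ∉ F.image e := fun h => by
      obtain ⟨w, hw, h2⟩ := mem_image.1 h
      exact hv (he (mem_coe.2 (mem_insert_of_mem hw)) (mem_coe.2 (mem_insert_self _ _)) h2 ▸ hw)
    have ih' := ih (he.mono (coe_subset.2 (subset_insert _ _))) fun w hw => hP w (mem_insert_of_mem hw)
    rw [image_insert, MS.alt_insert h1, MS.alt_insert hv, ih', ih', hP v (mem_insert_self _ _)]

/-- the alternating sum of a multi-affine function of a local map -/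
theorem alt_comp {e : V → V'} {F : Finset V} (he : Set.InjOn e F) {q : Finset ι}
    {f : (ι → ℝ) → ℝ} (ho : On q f) (hf : ∀ v ∈ F, Aff (S.st v) f) {P : (κ → ℝ) → ι → ℝ}
    (hP : ∀ v ∈ F, ∀ i ∈ q, v ∉ S.fc i → ∀ y, P (mix (S'.st (e v)) 0 y) i = P y i) (x : κ → ℝ) :
    S'.alt (F.image e) (fun x => f (P x)) x =
      S.alt F f fun i => S'.alt ((S.fc i ∩ F).image e) (fun x => P x i) x := by
  induction F using Finset.induction_on generalizing f P with
  | empty => simp only [image_empty, inter_empty, MS.alt_empty]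
  | insert v F hv ih =>
    have h1 : ∀ A ⊆ F, e v ∉ A.image e := fun A hA h => by
      obtain ⟨w, hw, h2⟩ := mem_image.1 h
      exact hv (he (mem_coe.2 (mem_insert_of_mem (hA hw))) (mem_coe.2 (mem_insert_self _ _)) h2 ▸
        hA hw)
    have hv' := mem_insert_self v F
    rw [image_insert, alt_insert' (h1 F Subset.rfl), alt_insert' hv]
    have h2 := ih (he.mono (coe_subset.2 (subset_insert _ _)))
      (f := fun z => f z - f (mix (S.st v) 0 z))
      (fun z z' hz => congrArg₂ (· - ·) (ho z z' hz) (ho _ _ fun i hi => by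
        simp only [mix, hz i hi]))
      (fun w hw => (hf w (mem_insert_of_mem hw)).sub ((hf w (mem_insert_of_mem hw)).kill _))
      (P := fun z => mix (S.st v) (P z - P (mix (S'.st (e v)) 0 z)) (P z)) fun w hw i hi k y => by
        simp only [mix, Pi.sub_apply]
        rw [hP w (mem_insert_of_mem hw) i hi k]
        change (if _ then _ - P (mix _ 0 (mix _ 0 y)) i else _) = _
        rw [mix_kill, hP w (mem_insert_of_mem hw) i hi k]
    convert h2 using 2
    · funext z
      have h3 := (hf v hv' (P z)).map_add (P z - P (mix (S'.st (e v)) 0 z))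
        (P (mix (S'.st (e v)) 0 z))
      rw [sub_add_cancel, mix_self, ho (mix _ (P (mix (S'.st (e v)) 0 z)) (P z))
        (P (mix (S'.st (e v)) 0 z)) fun i hi => by
          by_cases k : i ∈ S.st v
          · exact mix_pos _ _ k
          · rw [mix_neg _ _ k, hP v hv' i hi (mt S.mem_st.2 k)]] at h3
      rw [mix_mix]
      linarith
    · funext i
      by_cases k : v ∈ S.fc i
      · rw [inter_insert_of_mem k, image_insert, alt_insert' (h1 _ inter_subset_right)]
        simp only [mix_pos _ _ (S.mem_st.2 k), Pi.sub_apply]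
      · rw [inter_insert_of_notMem k]
        simp only [mix_neg _ _ (mt S.mem_st.1 k)]

theorem alt_comp' {S' : MS V κ} {F : Finset V} {q : Finset ι}
    {f : (ι → ℝ) → ℝ} (ho : On q f) (hf : ∀ v ∈ F, Aff (S.st v) f) {P : (κ → ℝ) → ι → ℝ}
    (hP : ∀ v ∈ F, ∀ i ∈ q, v ∉ S.fc i → ∀ y, P (mix (S'.st v) 0 y) i = P y i) (x : κ → ℝ) :
    S'.alt F (fun x => f (P x)) x =
      S.alt F f fun i => S'.alt (S.fc i ∩ F) (fun x => P x i) x := by
  simpa only [image_id] using alt_comp (e := id) (Set.injOn_id _) ho hf hP x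

theorem aff_map {r : Finset ι} {r' : Finset κ} {P : (κ → ℝ) → ι → ℝ} (hl : IsLinearMap ℝ P)
    (h : ∀ x y, P (mix r' x y) = mix r (P x) (P y)) {f : (ι → ℝ) → ℝ} (hf : Aff r f) :
    Aff r' fun x => f (P x) := fun y => by
  simp only [h, hl.map_zero]
  exact ⟨fun a b => by rw [hl.map_add]; exact (hf _).map_add _ _,
    fun a b => by rw [hl.map_smul]; exact (hf _).map_smul _ _⟩

theorem lin_map {r : Finset ι} {r' : Finset κ} {P : (κ → ℝ) → ι → ℝ} (hl : IsLinearMap ℝ P)
    (h : ∀ x y, P (mix r' x y) = mix r (P x) (P y)) {f : (ι → ℝ) → ℝ} (hf : Lin r f) :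
    Lin r' fun x => f (P x) :=
  (aff_map hl h hf.aff).lin fun y => by rw [h, hl.map_zero, hf.zero]

theorem alt_zero_mono {A B : Finset V} (hAB : A ⊆ B) {φ : (ι → ℝ) → ℝ}
    (h : ∀ x, S.alt A φ x = 0) (x : ι → ℝ) : S.alt B φ x = 0 := by
  rw [← sdiff_union_of_subset hAB]
  generalize B \ A = U
  induction U using Finset.induction_on generalizing x with
  | empty => rw [empty_union, h]
  | insert v U _ ih =>
    rw [insert_union]
    by_cases k : v ∈ U ∪ A
    · rw [insert_eq_of_mem k, ih]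
    · rw [MS.alt_insert k, ih, ih, sub_zero]

theorem alt_kz {A U : Finset V} {φ : (ι → ℝ) → ℝ}
    (h : ∀ v ∈ U, v ∉ A ∧ ∀ x, S.alt (insert v A) φ x = 0) (x : ι → ℝ) :
    S.alt A φ (S.kz U x) = S.alt A φ x := by
  induction U using Finset.induction_on generalizing x with
  | empty => rw [MS.kz_empty]
  | insert v U hv ih =>
    have h1 := h v (mem_insert_self _ _)
    have h2 := h1.2 x
    rw [MS.alt_insert h1.1, sub_eq_zero] at h2
    rw [MS.kz_insert, ih fun w hw => h w (mem_insert_of_mem hw), h2]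

theorem sum_alt_kz (F U : Finset V) (hU : F ⊆ U) (φ : (ι → ℝ) → ℝ) (x : ι → ℝ) :
    ∑ A ∈ F.powerset, S.alt A φ (S.kz (U \ A) x) = φ (S.kz (U \ F) x) := by
  induction F using Finset.induction_on generalizing U with
  | empty => simp only [powerset_empty, sum_singleton, MS.alt_empty]
  | insert v F hv ih =>
    rw [sum_powerset_insert hv, ← sum_add_distrib, sdiff_insert, ← erase_sdiff_comm,
      ← ih (U.erase v) fun w hw => mem_erase.2 ⟨fun e => hv (e ▸ hw), hU (mem_insert_of_mem hw)⟩]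
    refine sum_congr rfl fun A hA => ?_
    have h1 : v ∉ A := fun k => hv (mem_powerset.1 hA k)
    have h2 : U \ A = insert v (U.erase v \ A) := by
      rw [erase_sdiff_comm, insert_erase (mem_sdiff.2 ⟨hU (mem_insert_self _ _), h1⟩)]
    rw [MS.alt_insert h1, sdiff_insert, ← erase_sdiff_comm, h2, MS.kz_insert, MS.kz, MS.kz,
      mix_kill]
    ring

/-- a function is the sum of its components -/
theorem sum_cmp [Fintype V] (F : Finset V) (φ : (ι → ℝ) → ℝ) (x : ι → ℝ) :
    ∑ A ∈ F.powerset, cmp S A φ x = φ (S.kz (univ \ F) x) := sum_alt_kz F univ (subset_univ _) φ x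

end alt

section wide

theorem wid_aux (n : ℕ) : ∀ (L : Type) [Fintype L] [DecidableEq L] (lv : L → ℕ)
    (G : Matrix L L ℝ) (p : (L → ℤ) → L → ℝ), (∀ l, lv l < n) → G.PosDef →
    (∀ l l', lv l ≠ lv l' → G l l' = 0) → Tri lv p → |ms G p - 1| ≤ ms G (fun _ => 0) - 1 := by
  induction n with
  | zero =>
    intro L _ _ lv G p h _ _ _
    have : IsEmpty L := ⟨fun l => Nat.not_lt_zero _ (h l)⟩
    simp [ms_empty]
  | succ n ih =>
    intro L _ _ lv G p h hG ho hp
    have hs : Spl (fun l => lv l = n) p fun y => rs _ (p (glue (fun l => lv l = n) 0 y)) :=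
      fun z l => hp l _ _ fun j hj => by
        rw [glue_neg (X := fun _ => ℤ) _ _ (by have := h l; omega)]; rfl
    have ho' : Ort G fun l => lv l = n := fun i j hi hj => ho i j fun e => hj (e.symm.trans hi)
    have h1 := Ex_del hp hG ho' hs (ε := ms (bk G fun l => lv l = n) (fun _ => 0) - 1) (fun y => by
        have : pf (fun l => lv l = n) p y = fun _ => pf (fun l => lv l = n) p y 0 := by
          funext x l
          exact tri_pf hp _ y l _ _ fun j hj => absurd (j.2.trans l.2.symm) hj.ne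
        rw [this, ms_zero (posDef_bk hG _)]
        exact ms_const (posDef_bk hG _) _) (f := fun _ => 1) (C := 1) (by simp)
    rw [Ex_one, Ex_one, ← Complex.ofReal_sub, Complex.norm_real, Real.norm_eq_abs, mul_one] at h1
    have h2 := ih {l // ¬ lv l = n} (fun l => lv l.1) _ _ (fun l => lt_of_le_of_ne (Nat.le_of_lt_succ (h l)) l.2)
      (posDef_bk hG fun l => ¬ lv l = n) (fun l l' e => ho _ _ e) (hs.tri hp)
    have h3 := P057TE.one_le_ms (posDef_bk hG fun l => lv l = n)
    rw [ms_zero_split hG ho']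
    have h4 := mul_le_mul_of_nonneg_left (sub_le_sub_iff_right 1 |>.1 ((le_abs_self _).trans h2))
      (sub_nonneg.2 h3)
    exact (abs_sub_le _ _ _).trans ((add_le_add h1 h2).trans (by linarith))

variable {L : Type} [Fintype L] [DecidableEq L] {lv : L → ℕ} {G : Matrix L L ℝ}
  {p : (L → ℤ) → L → ℝ}

/-- the mass of a triangular system is controlled by the dual theta value -/
theorem wid (hG : G.PosDef) (ho : ∀ l l', lv l ≠ lv l' → G l l' = 0) (hp : Tri lv p) :
    |ms G p - 1| ≤ th G⁻¹ 0 - 1 :=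
  ms_zero hG ▸ wid_aux (univ.sup lv + 1) L lv G p
    (fun l => Nat.lt_succ_of_le (le_sup (mem_univ l))) hG ho hp

theorem th_big (hG : G.PosDef) {δ t : ℝ} (ht : 0 ≤ t)
    (h : ∀ k : L → ℤ, k ≠ 0 → δ ≤ qq G (toR k)) :
    th ((1 + t) • G) 0 ≤ 1 + Real.exp (-(π * (t * δ))) * th G 0 := by
  have h1 := (hasSum_ite_eq (0 : L → ℤ) (1 : ℝ)).add
    ((hasSum_th hG 0).mul_left (Real.exp (-(π * (t * δ)))))
  refine hasSum_le (fun k => ?_) (hasSum_th (hG.smul (by linarith)) 0) h1
  by_cases e : k = 0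
  · rw [if_pos e, e, toR_zero, sub_zero, gs_zero]
    exact le_add_of_nonneg_right (mul_nonneg (Real.exp_pos _).le (gs_pos _ _).le)
  · rw [if_neg e, zero_add, sub_zero, gs, gs, ← Real.exp_add, qq_smul_mat]
    refine Real.exp_le_exp.2 ?_
    nlinarith [mul_le_mul_of_nonneg_left (mul_le_mul_of_nonneg_left (h k e) ht) Real.pi_pos.le]

/-- a Gaussian made wider by `exp (3 Y)` is doubly exponentially flat -/
theorem fine (hG : G.PosDef) {Y : ℝ} (hY : 1 ≤ Y) (h : th G⁻¹ 0 ≤ Real.exp Y) :
    th (Real.exp (-(3 * Y)) • G)⁻¹ 0 ≤ 1 + Real.exp (-Real.exp Y) := by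
  have e : (Real.exp (-(3 * Y)) • G)⁻¹ = (1 + (Real.exp (3 * Y) - 1)) • G⁻¹ := by
    rw [add_sub_cancel]
    refine Matrix.inv_eq_left_inv ?_
    rw [smul_mul_smul_comm, ← Real.exp_add, add_neg_cancel, Real.exp_zero, one_smul,
      Matrix.nonsing_inv_mul _ hG.det_pos.ne'.isUnit]
  have h1 := Real.add_one_le_exp Y
  have h2 : Real.exp (3 * Y) * Real.exp (-(2 * Y)) = Real.exp Y := by
    rw [← Real.exp_add]; congr 1; ring
  have h3 : Real.exp (-(2 * Y)) ≤ 1 := Real.exp_le_one_iff.2 (by linarith)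
  rw [e]
  refine (th_big hG.inv (δ := Real.exp (-(2 * Y))) (sub_nonneg.2 (Real.one_le_exp (by linarith)))
    fun k hk => ?_).trans (add_le_add_right ?_ _)
  · have a1 := (P057MA.one_le_mul_th hG.inv hk).trans
      (mul_le_mul_of_nonneg_left h (Real.sqrt_nonneg _))
    have a2 := pow_le_pow_left₀ zero_le_one a1 2
    rw [mul_pow, Real.sq_sqrt (qq_nonneg hG.inv.posSemidef _), one_pow, ← Real.exp_nat_mul] at a2
    rwa [Real.exp_neg, inv_le_iff_one_le_mul₀ (Real.exp_pos _)]
  · refine (mul_le_mul_of_nonneg_left h (Real.exp_pos _).le).trans ?_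
    rw [← Real.exp_add, sub_mul, h2]
    refine Real.exp_le_exp.2 ?_
    nlinarith [Real.pi_gt_three, Real.pi_le_four]

theorem th_bk (hG : G.PosDef) {P : L → Prop} [DecidablePred P] (ho : Ort G P) :
    th (bk G P)⁻¹ 0 ≤ th G⁻¹ 0 := by
  rw [← ms_zero hG, ← ms_zero (posDef_bk hG P), ms_zero_split hG ho]
  exact le_mul_of_one_le_right (ms_nonneg _ _) (P057TE.one_le_ms (posDef_bk hG _))

end wide

variable {C W E : Type} [Fintype W] [DecidableEq W] [Fintype E] [DecidableEq E] {T : Tow}
  {cl : W → C} {m : ℕ} {X : Xt (Option W) (Lb T cl Unit m) E} {F : Finset W}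

theorem mem_up {A : Finset (VF F)} {v : VF F} : v.1 ∈ up A ↔ v ∈ A := mem_map' _

theorem up_sub (A : Finset (VF F)) : up A ⊆ fp F := fun _ h => by
  obtain ⟨v, -, rfl⟩ := mem_map.1 h; exact v.2

theorem sub_fp (F : Finset W) : F.image some ⊆ fp F := subset_insert _ _

theorem card_fp (F : Finset W) : (fp F).card = F.card + 1 := by
  rw [fp, card_insert_of_notMem (by simp), card_image_of_injective _ (Option.some_injective _)]

/-- above its degree a form lives on the face -/
theorem Dg.alt_kz {b : ℕ} {φ : (Lb T cl Unit m ⊕ E → ℝ) → ℝ} (h : Dg X b φ) (hb : b ≤ F.card + 1)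
    (x : Lb T cl Unit m ⊕ E → ℝ) :
    cmp (xt (sk T cl m) X) (fp F) φ x = (xt (sk T cl m) X).alt (fp F) φ x :=
  P057SY.alt_kz (fun v hv => ⟨(mem_sdiff.1 hv).2, by
    rcases v with _ | w
    · exact absurd (mem_insert_self _ _) (mem_sdiff.1 hv).2
    have : w ∉ F := fun k => (mem_sdiff.1 hv).2 (sub_fp F (mem_image_of_mem _ k))
    refine alt_zero_mono ?_ (h.deg (insert w F) (Or.inl (by rwa [card_insert_of_notMem this])))
    rw [image_insert]
    exact insert_subset_insert _ (sub_fp F)⟩) x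

theorem lin_pe (fc : E → Finset (Option W)) (F : Finset W) :
    IsLinearMap ℝ (pe (T := T) (m := m) cl fc F) := by
  refine ⟨fun x y => funext ?_, fun c x => funext ?_⟩ <;> rintro (l | e)
  · simp only [pe, pu, Pi.add_apply, Sum.elim_inl, ← sum_add_distrib, Function.comp]
    exact sum_congr rfl fun k _ => by split_ifs <;> simp
  · simp only [pe, Pi.add_apply, Sum.elim_inr]; split_ifs <;> simp
  · simp only [pe, pu, Pi.smul_apply, Sum.elim_inl, smul_eq_mul, mul_sum, Function.comp]
    exact sum_congr rfl fun k _ => by split_ifs <;> simp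
  · simp only [pe, Pi.smul_apply, Sum.elim_inr]; split_ifs <;> simp

theorem pe_mix (v : VF F) (x y : SA T (VF F) m ⊕ EF X.fc F → ℝ) :
    pe cl X.fc F (mix ((xt (S0 T (VF F) m) (X.sy F)).st v) x y) =
      mix ((xt (sk T cl m) X).st v.1) (pe cl X.fc F x) (pe cl X.fc F y) := by
  funext i
  simp only [mix, MS.mem_st]
  rcases i with l | e
  · change pu cl F _ l = if v.1 ∈ fo l then pu cl F _ l else pu cl F _ l
    simp only [pu, Function.comp, mix, MS.mem_st]
    split_ifs with k <;> refine sum_congr rfl fun a _ => if_ctx_congr Iff.rfl (fun h => ?_)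
      fun _ => rfl
    · exact if_pos (mem_up.1 (h.2.symm ▸ k))
    · exact if_neg fun c => k (h.2 ▸ mem_up.2 c)
  · change (if h : X.fc e ⊆ _ then _ else 0) = if v.1 ∈ X.fc e then
      (if h : X.fc e ⊆ _ then _ else 0) else (if h : X.fc e ⊆ _ then _ else 0)
    by_cases h : X.fc e ⊆ F.image some
    · simp only [dif_pos h, mix, MS.mem_st]
      exact if_congr mem_subtype rfl rfl
    · simp only [dif_neg h, ite_self]

theorem lin_sy {A : Finset (Option W)} {v : VF F} (hv : v.1 ∈ A)
    {φ : (Lb T cl Unit m ⊕ E → ℝ) → ℝ} (h : Aff ((xt (sk T cl m) X).st v.1) φ) :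
    Lin ((xt (S0 T (VF F) m) (X.sy F)).st v)
      fun x => (xt (sk T cl m) X).alt A φ (pe cl X.fc F x) :=
  lin_map (lin_pe _ _) (pe_mix v) (MS.lin_alt hv h)

theorem syf : SYF := by
  intro s N T C W E _ _ _ _ cl m τ X Y F hT hX hs h0
  have hc : (S0 T (VF F) m).Cen := P057TE.sym_cen hT (fun _ _ _ _ => trivial) _
  have hne : ∀ e : EF X.fc F, ((X.sy F).fc e).Nonempty := fun e => by
    obtain ⟨v, hv⟩ := hX.ne e
    exact ⟨⟨v, sub_fp F (e.2 hv)⟩, mem_subtype.2 hv⟩
  have ho : Ort X.G fun e => X.fc e ⊆ F.image some := fun i j hi hj =>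
    by_contra fun k => hj ((hX.ort i j k).1.superset.trans hi)
  refine ⟨⟨hne, posDef_bk hX.pd _, fun e e' h => ⟨congrArg (Finset.subtype _) (hX.ort _ _ h).1,
    (hX.ort _ _ h).2⟩, fun e x x' h1 h2 => ?_, fun v e => aff_map (lin_pe _ _) (pe_mix v)
      (MS.aff_alt (hX.aff v.1 e) _)⟩, ⟨?_, fun v a hv y => ?_⟩,
    ⟨fun e => hs.tr e, le_trans (Nat.cast_le.2 (Fintype.card_subtype_le _)) hs.card,
      fun k hk => ?_, (th_bk hX.pd ho).trans hs.cx⟩, fun e h => h0 e (mem_subtype.1 h),
    fun b φ hφ v => lin_sy v.2 (hφ.aff _)⟩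
  · refine sum_congr rfl fun U _ => congrArg (_ * ·) (hX.loc _ _ _ (fun l hl => ?_)
      fun e' a b => ?_) <;> refine if_ctx_congr Iff.rfl (fun _ => rfl) fun _ => ?_
    · refine sum_congr rfl fun k _ => if_ctx_congr Iff.rfl (fun h => h1 k fun v hv => ?_)
        fun _ => rfl
      exact mem_subtype.2 (hl (h.2.subset (mem_up.2 hv)))
    · have : X.fc e' ⊆ F.image some := a.trans e.2
      simp only [pe, Sum.elim_inr, dif_pos this]
      exact h2 ⟨e', this⟩ (subtype_mono a) b
  · rintro (i | e)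
    exacts [hc.ne i, hne e]
  · rcases a with i | e
    · rw [show (xt _ (X.sy F)).p _ (Sum.inl i) = (S0 T (VF F) m).p (_ ∘ Sum.inl) i from rfl,
        P057CO.fmp_inl.kill]
      exact hc.zero v i hv _
    · exact (lin_sy (mem_subtype.1 hv) (hX.aff v.1 e)).zero y
  · have := hs.sep _ (P057TE.ez_ne hk)
    rwa [P057TE.toR_ez, P057TE.qq_ez] at this

end

end Vale.Agent.P057SY
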