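import Vale.Agent.P057SY.Defs
import Vale.Agent.P057TE.Sym
import Vale.Agent.P057MA.Mor
import Vale.Agent.P057DP.Cub
import Vale.Agent.P057DP.Pd2

/-!
Symbols of kernel states and the blocks of one round.
-/

set_option linter.all false

open Matrix Finset
open Vale.Agent.P267.H775 Vale.Agent.P057G Vale.Agent.P057PC Vale.Agent.P057TP
open Vale.Agent.P057MA (On IntV Fm fce ln2 Nle Near Smo dil scl nar)
open Vale.Agent.P057DP (thK Sel Ev cub)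
open Vale.Agent.P057TE (SL sym fr)

namespace Vale.Agent.P057SY

noncomputable section

section gen

variable {V ι ι' E : Type}

/-- a map of labels, the identity on the extra coordinates -/
def sg (σ : (ι' → ℝ) → ι → ℝ) (x : ι' ⊕ E → ℝ) : ι ⊕ E → ℝ :=
  Sum.elim (σ (x ∘ Sum.inl)) (x ∘ Sum.inr)

/-- pull back of the extra coordinates -/
abbrev Xt.pull (X : Xt V ι E) (σ : (ι' → ℝ) → ι → ℝ) : Xt V ι' E :=
  ⟨X.fc, X.tr, X.G, fun x => X.g (sg σ x)⟩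

/-- the Gram matrix multiplied by a scalar -/
abbrev Xt.sm (X : Xt V ι E) (ω : ℝ) : Xt V ι E := ⟨X.fc, X.tr, ω • X.G, X.g⟩

/-- the component of a function on the face `A` -/
def cmp [Fintype V] [DecidableEq V] [Fintype ι] [DecidableEq ι] (S : MS V ι) (A : Finset V)
    (φ : (ι → ℝ) → ℝ) (x : ι → ℝ) : ℝ := S.alt A φ (S.kz (univ \ A) x)

/-- a resolution: after the dilation by `d` and with new extra coordinates that avoid `t`, the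
forms `ψ` are integer forms up to bounded forms -/
def Res [Fintype V] [DecidableEq V] [Fintype ι] [DecidableEq ι] [Fintype E] [DecidableEq E]
    {A : Type} (S : MS V ι) (X : Xt V ι E) (ψ : A → (ι ⊕ E → ℝ) → ℝ) (t : V) (τ d : ℕ)
    (lam Y : ℝ) : Prop :=
  ∃ (K : Type) (_ : Fintype K) (_ : DecidableEq K) (X' : Xt V ι K) (P : (ι ⊕ K → ℝ) → ι ⊕ E → ℝ),
    X'.Ok (dil S univ lam) ∧ (xt (dil S univ lam) X').Cen ∧ X'.Sz τ Y ∧ (∀ k, t ∉ X'.fc k) ∧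
    P057MA.Mor (xt (dil S univ lam) X') (xt S X) P ∧
    (∀ z, P z ∘ Sum.inl = scl S univ d (z ∘ Sum.inl)) ∧
    ∀ a, Near (xt (dil S univ lam) X') univ univ (fun z => ψ a (P z)) (Real.exp Y)

end gen

section sym

variable {T T' : Tow} {V K R : Type} {m : ℕ}

/-- labels of the full symbol cube -/
abbrev SA (T : Tow) (V : Type) (m : ℕ) : Type := SL T (fun _ : Finset V => True) m

/-- the full symbol cube -/
def S0 (T : Tow) (V : Type) [Fintype V] [DecidableEq V] (m : ℕ) : MS V (SA T V m) :=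
  sym T (fun _ => True) m 25

/-- the polarisation of an integer polynomial map -/
def pol [Fintype V] [DecidableEq V] (φ : T.ι → MvPolynomial T'.ι ℤ) (x : SA T' V m → ℝ)
    (k : SA T V m) : ℝ :=
  (MvPolynomial.eval₂ (Int.castRingHom _) ((fr SL.cd SL.fc 0).pt x) (φ k.cd)).coeff k.fc.val

/-- a permutation of the vertices acts on the labels -/
def pa (ρ : Equiv.Perm V) (k : SA T V m) : SA T V m :=
  ⟨(k.cd, k.fc.map ρ.toEmbedding), k.2.1, (card_map _).trans k.2.2.1, trivial⟩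

/-- the copy `a` of labels and extra coordinates -/
def cpr (r : R → Equiv.Perm V) (a : R) (x : SA T V m ⊕ R × K → ℝ) : SA T V m ⊕ K → ℝ :=
  Sum.elim (fun k => x (Sum.inl (pa (r a) k))) fun e => x (Sum.inr (a, e))

/-- permuted copies of the extra coordinates -/
abbrev Xt.clo [DecidableEq R] (X : Xt V (SA T V m) K) (r : R → Equiv.Perm V) :
    Xt V (SA T V m) (R × K) :=
  ⟨fun e => (X.fc e.2).map (r e.1).toEmbedding, fun e => X.tr e.2,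
    Matrix.of fun e e' => if e.1 = e'.1 then X.G e.2 e'.2 else 0, fun x e => X.g (cpr r e.1 x) e.2⟩

/-- the identity and a transposition -/
def sw [DecidableEq V] (t w : V) (c : Bool) : Equiv.Perm V := cond c (Equiv.swap t w) 1

variable [Fintype V] [DecidableEq V] [Fintype K] [DecidableEq K]

/-- the symmetrised form is an integer form of the labels up to a bounded form -/
def Hat (X : Xt V (SA T V m) K) (ψ : (SA T V m ⊕ K → ℝ) → ℝ) (B : ℝ) : Prop :=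
  ∃ I R : (SA T V m → ℝ) → ℝ, Fm (S0 T V m) univ univ I ∧ IntV I ∧ Fm (S0 T V m) univ univ R ∧
    Nle (S0 T V m) univ R B ∧ ∀ y : SA T V m ⊕ Equiv.Perm V × K → ℤ,
      ln2 (xt (S0 T V m) (X.clo id)) univ (toR y) ≤ B⁻¹ →
      ∑ ρ, ψ (cpr id ρ (toR y)) = I (toR y ∘ Sum.inl) + R (toR y ∘ Sum.inl)

/-- the form minus its transpose is biased, wide extra coordinates -/
def Sb (X : Xt V (SA T V m) K) (ψ : (SA T V m ⊕ K → ℝ) → ℝ) (t w : V) (ω δ : ℝ) : Prop :=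
  δ * vl (xt (S0 T V m) ((X.clo (sw t w)).sm ω)).G univ ≤
    (xt (S0 T V m) ((X.clo (sw t w)).sm ω)).bias univ
      fun x => ψ (cpr (sw t w) false x) - ψ (cpr (sw t w) true x)

end sym

variable {C W E J : Type} [Fintype W] [DecidableEq W] {T T' : Tow} {cl : W → C} {m : ℕ}

/-- a face with the special vertex -/
def fp (F : Finset W) : Finset (Option W) := insert none (F.image some)

/-- the vertices of a face with the special vertex -/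
abbrev VF (F : Finset W) : Type := {v // v ∈ fp F}

/-- the special vertex -/
def tF (F : Finset W) : VF F := ⟨none, mem_insert_self _ _⟩

/-- a set of vertices of the face -/
def up {F : Finset W} (A : Finset (VF F)) : Finset (Option W) :=
  A.map (Function.Embedding.subtype _)

open Classical in
/-- the partial transversals with `b` vertices -/
def tops (cl : W → C) (b : ℕ) : Finset (Finset W) :=
  univ.filter fun F => F.card = b ∧ Set.InjOn cl F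

/-- extension by zero from the symbol cube of a face to the labels -/
def pu (cl : W → C) (F : Finset W) (x : SA T (VF F) m → ℝ) (l : Lb T cl Unit m) : ℝ :=
  ∑ k, if k.cd = l.cd ∧ up k.fc = fo l then x k else 0

/-- restriction of the labels to the symbol cube of a face -/
def rf (F : Finset W) (z : Lb T cl Unit m → ℝ) (k : SA T (VF F) m) : ℝ :=
  ∑ l, if k.cd = l.cd ∧ up k.fc = fo l then z l else 0

/-- the extra coordinates inside a face -/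
abbrev EF (fc : E → Finset (Option W)) (F : Finset W) : Type := {e // fc e ⊆ F.image some}

/-- extension by zero, with the extra coordinates -/
def pe (cl : W → C) (fc : E → Finset (Option W)) (F : Finset W)
    (x : SA T (VF F) m ⊕ EF fc F → ℝ) : Lb T cl Unit m ⊕ E → ℝ :=
  Sum.elim (pu cl F (x ∘ Sum.inl)) fun e =>
    if h : fc e ⊆ F.image some then x (Sum.inr ⟨e, h⟩) else 0

section ex

variable [Fintype E] [DecidableEq E]

/-- the symbols of the extra coordinates inside a face -/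
def Xt.sy (X : Xt (Option W) (Lb T cl Unit m) E) (F : Finset W) :
    Xt (VF F) (SA T (VF F) m) (EF X.fc F) :=
  ⟨fun e => (X.fc e).subtype _, fun e => X.tr e, bk X.G _,
    fun x e => (xt (sk T cl m) X).alt (X.fc e) (fun y => X.g y e) (pe cl X.fc F x)⟩

/-- the symbol of a form on a face -/
def sf (X : Xt (Option W) (Lb T cl Unit m) E) (F : Finset W)
    (φ : (Lb T cl Unit m ⊕ E → ℝ) → ℝ) (x : SA T (VF F) m ⊕ EF X.fc F → ℝ) : ℝ :=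
  (xt (sk T cl m) X).alt (fp F) φ (pe cl X.fc F x)

/-- the position of the extra coordinates is at most `B` -/
def Ps {V ι : Type} (X : Xt V ι E) (z : ι → ℤ) (n : E → ℤ) (B : ℝ) : Prop :=
  qq X.G (toR n - X.g (jn z n)) ≤ B

/-- correlation of a product over the cells with a phase -/
def Cor (Z : Sys T W Unit) (X : Xt (Option W) (Lb T cl Unit m) E)
    (n : (Lb T cl Unit m → ℤ) → E → ℤ) (φ : (Lb T cl Unit m ⊕ E → ℝ) → ℝ) (Y : ℝ) : Prop :=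
  ∃ (β : (Lb T cl Unit m → ℤ) → ℂ) (g : Finset W → (T.ι → ℤ) → ℝ), WO β ∧ (∀ z, ‖β z‖ ≤ 1) ∧
    (∀ z, β z ≠ 0 → Ps X z (n z) (Real.exp Y)) ∧ (∀ c y, |g c y| ≤ 1) ∧
    Real.exp (-Y) ≤ ‖∑' z, (Z.w cl m z : ℂ) * (β z *
      ((∏ c ∈ cells cl, g c (pt z (some ()) c) : ℝ) * ee (φ (jn z (n z)))))‖

end ex

/-- maps of labels that respect faces, degrees and symbols -/
structure Lm (cl : W → C) (m : ℕ) (φ : T.ι → MvPolynomial T'.ι ℤ)
    (σ : (Lb T' cl Unit m → ℝ) → Lb T cl Unit m → ℝ) : Prop where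
  ok : ∀ (E : Type) [Fintype E] [DecidableEq E] (X : Xt (Option W) (Lb T cl Unit m) E),
    X.Ok (sk T cl m) → (∀ e, none ∉ X.fc e) → (X.pull σ).Ok (sk T' cl m) ∧
      ∀ F : Finset W, Set.InjOn cl F → (X.pull σ).sy F = (X.sy F).pull (pol φ)
  dg : ∀ (E : Type) [Fintype E] [DecidableEq E] (X : Xt (Option W) (Lb T cl Unit m) E) b f,
    Dg X b f → Dg (X.pull σ) b (fun x => f (sg σ x)) ∧ ∀ F : Finset W, Set.InjOn cl F →
      b ≤ F.card + 1 → ∀ x, sf (X.pull σ) F (fun x => f (sg σ x)) x = sf X F f (sg (pol φ) x)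

/-- the data of a kernel state -/
structure KD (T : Tow) (cl : W → C) (m : ℕ) (E J : Type) where
  X : Xt (Option W) (Lb T cl Unit m) E
  Φ : (Lb T cl Unit m ⊕ E → ℝ) → J → ℝ
  Gk : Matrix J J ℝ
  K : Submodule ℤ (J → ℤ)
  u : (Lb T cl Unit m → ℤ) → ℝ
  n : (Lb T cl Unit m → ℤ) → E → ℤ
  γ : (Lb T cl Unit m → ℤ) → J → ℝ

variable [Fintype E] [DecidableEq E] [Fintype J] [DecidableEq J]

structure KD.Ok (D : KD T cl m E J) (b τ : ℕ) (Y : ℝ) : Prop where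
  ok : D.X.Ok (sk T cl m)
  sz : D.X.Sz τ Y
  tf : ∀ e, none ∉ D.X.fc e
  cj : (Fintype.card J : ℝ) ≤ Y
  dg : ∀ j, Dg D.X b fun x => D.Φ x j
  pd : D.Gk.PosDef
  gk : ∀ j, D.Gk j j ≤ Real.exp Y
  wu : WO D.u
  wn : WO D.n
  wg : WO D.γ
  u01 : ∀ z, 0 ≤ D.u z ∧ D.u z ≤ 1
  ps : ∀ z, D.u z ≠ 0 → Ps D.X z (D.n z) (Real.exp Y)

/-- the function of the state -/
def KD.H (D : KD T cl m E J) (Z : Sys T W Unit) (f : ℤ → ℝ) (θ : ℝ) (z : Lb T cl Unit m → ℤ) : ℝ :=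
  D.u z * (thK D.Gk D.K (D.Φ (jn z (D.n z)) - D.γ z) / th D.Gk 0) * Z.Ex0 cl m f θ z

/-- pull back along a substitution -/
abbrev KD.pull (D : KD T cl m E J) (Ψ : Fam ℤ T.ι T'.ι W Unit)
    (σ : (Lb T' cl Unit m → ℝ) → Lb T cl Unit m → ℝ) (γ : (Lb T' cl Unit m → ℤ) → J → ℝ) :
    KD T' cl m E J :=
  ⟨D.X.pull σ, fun x => D.Φ (sg σ x), D.Gk, D.K, fun z => D.u (Ψ.sub cl m z),
    fun z => D.n (Ψ.sub cl m z), γ⟩

/-- a smaller weight and fewer frequencies -/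
abbrev KD.cut (D : KD T cl m E J) (u : (Lb T cl Unit m → ℤ) → ℝ) (K : Submodule ℤ (J → ℤ)) :
    KD T cl m E J := ⟨D.X, D.Φ, D.Gk, D.K ⊓ K, u, D.n, D.γ⟩

theorem KD.ks {D : KD T cl m E J} {b τ : ℕ} {Y B κ σ θ : ℝ} {Z : Sys T W Unit} {f : ℤ → ℝ}
    (h : D.Ok b τ Y) (hs : Z.St cl m (D.H Z f θ) B κ σ) : KS Z cl m f θ b τ Y B κ σ :=
  ⟨E, J, _, _, _, _, D.X, D.Φ, D.Gk, D.K, D.u, D.n, D.γ, h.ok, h.sz, h.tf, h.cj, h.dg, h.pd, h.gk,
    h.wu, h.wn, h.wg, h.u01, h.ps, hs⟩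

theorem KS.kd {b τ : ℕ} {Y B κ σ θ : ℝ} {Z : Sys T W Unit} {f : ℤ → ℝ}
    (h : KS Z cl m f θ b τ Y B κ σ) : ∃ (E J : Type) (_ : Fintype E) (_ : DecidableEq E)
      (_ : Fintype J) (_ : DecidableEq J) (D : KD T cl m E J),
      D.Ok b τ Y ∧ Z.St cl m (D.H Z f θ) B κ σ := by
  obtain ⟨E, J, _, _, _, _, X, Φ, Gk, K, u, n, γ, a1, a2, a3, a4, a5, a6, a7, a8, a9, b1, b2, b3,
    b4⟩ := h
  exact ⟨E, J, _, _, _, _, ⟨X, Φ, Gk, K, u, n, γ⟩, ⟨a1, a2, a3, a4, a5, a6, a7, a8, a9, b1, b2, b3⟩,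
    b4⟩

/-- the vertices of the two readings of a form on the doubled cube -/
def rv (w : W) (c : Bool) : Option W → W × Bool :=
  fun v => v.elim (w, !c) fun v => (v, if v = w then c else false)

open Classical in
/-- the pure labels read on the doubled cube, without signs -/
def pl (cl : W → C) (w : W) (c : Bool) (x : Lb T (id : W × Bool → W × Bool) Unit m → ℝ)
    (l : Lb T cl Unit m) : ℝ :=
  ∑ k, if k.bs = none ∧ k.cd = l.cd ∧ k.fc = (fo l).image (rv w c) then x k else 0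

/-- the sign of a face -/
def sn (w : W) (A : Finset (Option W)) : ℤ := if some w ∈ A then -1 else 1

/-! ### the blocks -/

/-- pull back along a map of systems -/
def PULL : Prop :=
  ∀ (s : ℕ) (N : ℝ) (T T' : Tow) (C W : Type) [Fintype W] [DecidableEq W] (cl : W → C) (m : ℕ)
    (Z : Sys T W Unit) (Z' : Sys T' W Unit) (Ψ : Fam ℤ T.ι T'.ι W Unit) (R r : ℝ), T.Ok s N →
    T'.Ok s N → Sub cl m Z' Z Ψ R r → ∃ σ, Lm cl m Ψ.top σ ∧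
      ∀ (E J : Type) [Fintype E] [DecidableEq E] [Fintype J] [DecidableEq J] (D : KD T cl m E J)
        (b τ : ℕ) (Y : ℝ), D.Ok b τ Y → ∃ γ, (D.pull Ψ σ γ).Ok b τ Y ∧
          ∀ f θ z, (D.pull Ψ σ γ).H Z' f θ z = D.H Z f θ (Ψ.sub cl m z)

/-- symbols are centred -/
def SYF : Prop :=
  ∀ (s : ℕ) (N : ℝ) (T : Tow) (C W E : Type) [Fintype W] [DecidableEq W] [Fintype E]
    [DecidableEq E] (cl : W → C) (m τ : ℕ) (X : Xt (Option W) (Lb T cl Unit m) E) (Y : ℝ)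
    (F : Finset W), T.Ok s N → X.Ok (sk T cl m) → X.Sz τ Y → (∀ e, none ∉ X.fc e) →
    (X.sy F).Ok (S0 T (VF F) m) ∧ (xt (S0 T (VF F) m) (X.sy F)).Cen ∧ (X.sy F).Sz τ Y ∧
      (∀ e, tF F ∉ (X.sy F).fc e) ∧
      ∀ b φ, Dg X b φ → ∀ v, Lin ((xt (S0 T (VF F) m) (X.sy F)).st v) (sf X F φ)

/-- new coordinates of the tower for the diagonals of the symbols -/
def HAT (s τ : ℕ) : Prop :=
  ∃ c : ℕ, ∀ (N : ℝ) (T : Tow) (C W E J : Type) [Fintype W] [DecidableEq W] [Fintype E]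
    [DecidableEq E] [Fintype J] [DecidableEq J] (cl : W → C) (m b : ℕ) (Z : Sys T W Unit)
    (D : KD T cl m E J) (H : (Lb T cl Unit m → ℤ) → ℝ) (B κ σ Y : ℝ), T.Ok s N → Z.Ok →
    b + 1 < m → m ≤ s + 1 → D.Ok (b + 1) τ Y → (Fintype.card W : ℝ) ≤ Y → (c : ℝ) ≤ Y →
    Z.St cl m H B κ σ →
    ∃ (T' : Tow) (Z' : Sys T' W Unit) (Ψ : Fam ℤ T.ι T'.ι W Unit), T'.Ok s N ∧ Z'.Ok ∧ Up m T' T ∧
      (∀ e, T'.dm e ≤ T.dm e + Y ^ c ∧ T'.yy N e ≤ T.yy N e + Y ^ c) ∧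
      Sub cl m Z' Z Ψ 0 0 ∧ Z'.St cl m (fun z => H (Ψ.sub cl m z)) B κ σ ∧
      ∀ F ∈ tops cl b, ∀ j, Hat ((D.X.sy F).pull (pol Ψ.top))
        (fun x => sf D.X F (fun x => D.Φ x j) (sg (pol Ψ.top) x)) (Real.exp Y)

/-- polarisations of morphisms are morphisms of symbol cubes -/
def MORC (s : ℕ) : Prop :=
  ∃ c : ℕ, 1 ≤ c ∧ ∀ (N : ℝ) (T T' : Tow) (V : Type) [Fintype V] [DecidableEq V] (m : ℕ)
    (φ : T.ι → MvPolynomial T'.ι ℤ), T.Ok s N → T'.Ok s N → Fintype.card V ≤ s + 1 →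
    Mor m T' T φ → P057MA.Mor (nar (S0 T' V m) c) (S0 T V m) (pol φ) ∧
      (∀ ρ (x : SA T' V m → ℝ), pol φ x ∘ pa ρ = pol φ (x ∘ pa ρ)) ∧
      ∀ (K : Type) [Fintype K] [DecidableEq K] (X : Xt V (SA T V m) K) ψ (B : ℝ), 1 ≤ B →
        X.G.PosDef → Hat X ψ B → Hat (X.pull (pol φ)) (fun x => ψ (sg (pol φ) x)) (c * B)

/-- only frequencies with a correlation are kept -/
def DRP (s : ℕ) : Prop :=
  ∃ c : ℕ, ∀ (N : ℝ) (T : Tow) (C W E J : Type) [Fintype W] [DecidableEq W] [Fintype E]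
    [DecidableEq E] [Fintype J] [DecidableEq J] (cl : W → C) (m b τ : ℕ) (Z : Sys T W Unit)
    (D : KD T cl m E J) (f : ℤ → ℝ) (θ B κ σ Y : ℝ), T.Ok s N → Z.Ok → D.Ok b τ Y →
    (Fintype.card W : ℝ) ≤ Y → ((cells cl).card : ℝ) ≤ Y → (c : ℝ) ≤ Y → 0 ≤ θ → θ ≤ 4 →
    (∀ z c, |Z.F cl m f z c ()| ≤ Real.exp Y) → Real.exp (-Y) ≤ κ → 0 ≤ σ →
    T.LFd (m - 1) (Y ^ c) (Y ^ c) → Z.St cl m (D.H Z f θ) B κ σ →
    ∃ (π : Sel J) (H : ℕ) (u : (Lb T cl Unit m → ℤ) → ℝ), π.Bd H ∧ 1 ≤ H ∧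
      (H : ℝ) ≤ Real.exp (Y ^ c) ∧ (D.cut u π.K).Ok b τ Y ∧
      Z.St cl m ((D.cut u π.K).H Z f θ) (Real.exp (Y ^ c)) (Real.exp (-Y ^ c))
        (Real.exp (-Y ^ c)) ∧
      ∀ a, Cor Z D.X D.n (fun x => toR (π.b a) ⬝ᵥ D.Φ x) (Y ^ c)

/-- first half of the symmetry argument: copy of `w`, reflection of the square -/
def SYM1 (s : ℕ) : Prop :=
  ∃ c : ℕ, ∀ (N : ℝ) (T : Tow) (C W E : Type) [Fintype W] [DecidableEq W] [Fintype E]
    [DecidableEq E] (cl : W → C) (m b : ℕ) (Z : Sys T W Unit)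
    (X : Xt (Option W) (Lb T cl Unit m) E) (n : (Lb T cl Unit m → ℤ) → E → ℤ)
    (φ : (Lb T cl Unit m ⊕ E → ℝ) → ℝ) (Y : ℝ) (w : W), T.Ok s N → Z.Ok → X.Ok (sk T cl m) →
    (∀ e, none ∉ X.fc e) → Dg X b φ → WO n → (Fintype.card W : ℝ) ≤ Y → (c : ℝ) ≤ Y →
    T.LFd (m - 1) (Y ^ c) (Y ^ c) → Cor Z X n φ Y →
    ∃ (Z' : Sys T (W × Bool) Unit) (x₀ : Lb T (id : W × Bool → W × Bool) Unit m → ℝ)
      (A : Bool → (Lb T (id : W × Bool → W × Bool) Unit m → ℤ) → ℂ)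
      (n' : Bool → (Lb T (id : W × Bool → W × Bool) Unit m → ℤ) → E → ℤ), Z'.Ok ∧
      (∀ c z, ‖A c z‖ ≤ 1) ∧
      (∀ c z z', (∀ l, (w, !c) ∉ l.fc → z l = z' l) → A c z = A c z' ∧ n' c z = n' c z') ∧
      (∀ c z, A c z ≠ 0 → qq X.G (toR (n' c z) - X.g (Sum.elim
        (fun l => sn w (fo l) * pl cl w c (toR z) l) (toR (n' c z)))) ≤ Real.exp Y) ∧
      Real.exp (-(3 * Y)) ≤ ‖Ev (cub Z' id m (fun _ _ => 25) x₀) univ fun z =>
        A false z * (A true z *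
          ee (φ (Sum.elim (fun l => sn w (fo l) * pl cl w true (toR z) l) (toR (n' true z))) -
            φ (Sum.elim (fun l => sn w (fo l) * pl cl w false (toR z) l) (toR (n' false z)))))‖

/-- the symmetry argument -/
def SYM (s : ℕ) : Prop :=
  ∃ c : ℕ, ∀ (N : ℝ) (T : Tow) (C W E : Type) [Fintype W] [DecidableEq W] [Fintype E]
    [DecidableEq E] (cl : W → C) (m b τ : ℕ) (Z : Sys T W Unit)
    (X : Xt (Option W) (Lb T cl Unit m) E) (n : (Lb T cl Unit m → ℤ) → E → ℤ)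
    (φ : (Lb T cl Unit m ⊕ E → ℝ) → ℝ) (Y : ℝ), T.Ok s N → Z.Ok → X.Ok (sk T cl m) → X.Sz τ Y →
    (∀ e, none ∉ X.fc e) → Dg X (b + 1) φ → WO n → (Fintype.card W : ℝ) ≤ Y → (c : ℝ) ≤ Y →
    T.LFd (m - 1) (Y ^ c) (Y ^ c) → Cor Z X n φ Y → ∀ F ∈ tops cl b, ∀ w, w ≠ tF F →
    Sb (X.sy F) (sf X F φ) (tF F) w (Real.exp (-(3 * Y))) (Real.exp (-Y ^ c))

/-- regularisation of the extra coordinates, transfer of the biases, the dichotomy for biased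
forms, removal of the extra coordinates through `t` -/
def CORE (n τ : ℕ) : Prop :=
  ∃ c : ℕ, ∀ (V ι K K₁ A B : Type) [Fintype V] [DecidableEq V] [Fintype ι] [DecidableEq ι]
    [Fintype K] [DecidableEq K] [Fintype K₁] [DecidableEq K₁] [Fintype A] [Fintype B]
    (S : MS V ι) (X : Xt V ι K) (X₁ : Xt V ι K₁) (i : K₁ → K) (t : V)
    (θ : A → (ι ⊕ K → ℝ) → ℝ) (ψ : B → (ι ⊕ K₁ → ℝ) → ℝ) (ω Y : ℝ), Fintype.card V ≤ n → S.Ok →
    S.Cen → X.Ok S → (xt S X).Cen → X.Sz τ Y → (∀ k, X.fc k ≠ univ) →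
    X₁.Ok S → Function.Injective i →
    (∀ k, X.fc (i k) = X₁.fc k ∧ t ∉ X₁.fc k ∧ ∀ k', X.G (i k) (i k') = X₁.G k k') →
    (∀ k k', k' ∉ Set.range i → X.G (i k) k' = 0) →
    (∀ x k, X.g x (i k) = X₁.g (x ∘ Sum.map id i) k) → (c : ℝ) ≤ Y →
    (Fintype.card ι : ℝ) ≤ Real.exp Y → (Fintype.card A : ℝ) ≤ Y → (Fintype.card B : ℝ) ≤ Y →
    Smo S univ c (Real.exp (Y ^ c)) (Real.exp (-Y ^ c)) → Real.exp (-Y) ≤ ω → ω ≤ 1 →
    th (ω • X.G)⁻¹ 0 ≤ 1 + Real.exp (-(2 * Y)) →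
    (∀ a, (∀ v, Lin ((xt S X).st v) (θ a)) ∧
      Real.exp (-Y) * vl (xt S (X.sm ω)).G univ ≤ (xt S (X.sm ω)).bias univ (θ a)) →
    (∀ b, (∀ v, Lin ((xt S X₁).st v) (ψ b)) ∧ ∃ (cf : A → ℤ) (q : ℕ) (R : (ι → ℝ) → ℝ), 0 < q ∧
      (q : ℝ) ≤ Real.exp Y ∧ (∀ a, |(cf a : ℝ)| ≤ Real.exp Y) ∧ Fm S univ univ R ∧
      Nle S univ R (Real.exp Y) ∧ ∀ y : ι ⊕ K → ℤ, ln2 (xt S X) univ (toR y) ≤ Real.exp (-Y) →
        ∃ k : ℤ, q * ψ b (toR y ∘ Sum.map id i) =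
          ∑ a, cf a * θ a (toR y) + R (toR y ∘ Sum.inl) + k) →
    ∃ d₀ : ℕ, 0 < d₀ ∧ (d₀ : ℝ) ≤ Real.exp (Y ^ c) ∧ ∀ (d : ℕ) (lam Y' : ℝ), 0 < d → d₀ ∣ d →
      d * Real.exp (Y ^ c) ≤ lam → lam ≤ Real.exp Y' → Y ≤ Y' → Res S X₁ ψ t τ d lam (Y' ^ c)

/-- symmetric forms with an integer symmetrisation have a resolution -/
def REL (s τ : ℕ) : Prop :=
  ∃ c : ℕ, ∀ (N : ℝ) (T : Tow) (V K B : Type) [Fintype V] [DecidableEq V] [Fintype K]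
    [DecidableEq K] [Fintype B] (m q : ℕ) (X : Xt V (SA T V m) K) (t : V)
    (ψ : B → (SA T V m ⊕ K → ℝ) → ℝ) (ω Y : ℝ), T.Ok s N → Fintype.card V ≤ s + 1 →
    X.Ok (S0 T V m) → (xt (S0 T V m) X).Cen → X.Sz τ Y → (∀ k, t ∉ X.fc k) → (c : ℝ) ≤ Y →
    (Fintype.card T.ι : ℝ) ≤ Real.exp Y → (Fintype.card B : ℝ) ≤ Y →
    T.LFd (m - 1) (Y ^ c) (Y ^ c) → Real.exp (-Y) ≤ ω → ω ≤ 1 →
    th (ω • X.G)⁻¹ 0 ≤ 1 + Real.exp (-Y ^ 2) → 0 < q → (q : ℝ) ≤ Real.exp Y →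
    (∀ b, (∀ v, Lin ((xt (S0 T V m) X).st v) (ψ b)) ∧ Hat X (fun x => q * ψ b x) (Real.exp Y) ∧
      ∀ w, w ≠ t → Sb X (fun x => q * ψ b x) t w ω (Real.exp (-Y))) →
    ∃ d₀ : ℕ, 0 < d₀ ∧ (d₀ : ℝ) ≤ Real.exp (Y ^ c) ∧ ∀ (d : ℕ) (lam Y' : ℝ), 0 < d → d₀ ∣ d →
      d * Real.exp (Y ^ c) ≤ lam → lam ≤ Real.exp Y' → Y ≤ Y' →
      Res (S0 T V m) X ψ t τ d lam (Y' ^ c)

/-- rounding of the extra coordinates -/
def RND : Prop :=
  ∀ (V ι K : Type) [DecidableEq V] [Fintype ι] [DecidableEq ι] [Fintype K] [DecidableEq K]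
    (S : MS V ι) (X : Xt V ι K) (τ : ℕ) (Y : ℝ), X.Ok S → X.Sz τ Y → 2 ≤ Y →
    ∃ w : (ι → ℤ) → K → ℤ, (∀ z, Ps X z (w z) (Real.exp (4 * Y))) ∧
      ∀ z z', (∀ i k, S.fc i ⊆ X.fc k → z i = z' i) → w z = w z'

/-- demotion: the old extra coordinates are integer forms plus coordinates on smaller faces -/
def DEM (s τ : ℕ) : Prop :=
  ∃ c : ℕ, ∀ (T : Tow) (C W E K : Type) [Fintype W] [DecidableEq W] [Fintype E] [DecidableEq E]
    [Fintype K] [DecidableEq K] (cl : W → C) (m b : ℕ) (X : Xt (Option W) (Lb T cl Unit m) E)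
    (X₂ : Xt (Option W) (Lb T cl Unit m) K) (M : Finset W → (Lb T cl Unit m ⊕ K → ℝ) → E → ℝ)
    (n : (Lb T cl Unit m → ℤ) → E → ℤ) (w : (Lb T cl Unit m → ℤ) → K → ℤ)
    (Gd : (Lb T cl Unit m → ℤ) → Prop) (Y : ℝ), b ≤ s → (∀ a, 0 < T.lv a) → (c : ℝ) ≤ Y →
    (Fintype.card W : ℝ) ≤ Y → X.Ok (sk T cl m) → X.Sz τ Y → (∀ e, none ∉ X.fc e) → X₂.Ok (sk T cl m) → X₂.Sz τ Y →
    (∀ e, none ∉ X₂.fc e) → WO n → WO w →
    (∀ F ∈ tops cl b, ∀ e, X.fc e ⊆ F.image some → IntV (fun y => M F y e) ∧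
      Fm (xt (sk T cl m) X₂) (fce (xt (sk T cl m) X₂) (X.fc e)) (X.fc e) fun y => M F y e) →
    (∀ z, Gd z → Ps X z (n z) (Real.exp Y) ∧ Ps X₂ z (w z) (Real.exp Y) ∧ ∀ F ∈ tops cl b,
      qq X.G (fun e => if X.fc e ⊆ F.image some then M F (jn z (w z)) e -
        (xt (sk T cl m) X).alt (X.fc e) (fun y => X.g y e)
          (Sum.elim (toR z) (M F (jn z (w z)))) else 0) ≤ Real.exp Y) →
    ∃ (Cs : Type) (_ : Fintype Cs) (cs : (Lb T cl Unit m → ℤ) → Cs), WO cs ∧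
      (Fintype.card Cs : ℝ) ≤ Real.exp (Y ^ c) ∧ ∀ a : Cs, ∃ (E' : Type) (_ : Fintype E')
        (_ : DecidableEq E') (X' : Xt (Option W) (Lb T cl Unit m) E')
        (n' : (Lb T cl Unit m → ℤ) → E' → ℤ), X'.Ok (sk T cl m) ∧ X'.Sz (2 * τ) (Y ^ c) ∧
        (∀ e, none ∉ X'.fc e) ∧ WO n' ∧
        (∀ z, Gd z → cs z = a → Ps X' z (n' z) (Real.exp (Y ^ c))) ∧
        ∀ φ, Dg X (b + 1) φ → ∃ φ', Dg X' b φ' ∧ ∀ z, Gd z → cs z = a →
          φ' (jn z (n' z)) = φ (jn z (n z)) - ∑ F ∈ tops cl b,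
            cmp (xt (sk T cl m) X) (fp F) φ (Sum.elim (toR z) (M F (jn z (w z))))

/-- from resolutions of all top faces to a kernel state of smaller degree -/
def FIN (s τ : ℕ) : Prop :=
  ∃ c : ℕ, ∀ (N : ℝ) (P : ℕ → ℝ) (T : Tow) (C W E J A : Type) [Fintype W] [DecidableEq W]
    [Fintype E] [DecidableEq E] [Fintype J] [DecidableEq J] [Fintype A] (cl : W → C) (m b d : ℕ)
    (Z : Sys T W Unit) (D : KD T cl m E J) (φ : A → (Lb T cl Unit m ⊕ E → ℝ) → ℝ)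
    (w : A → J → ℤ) (f : ℤ → ℝ) (θ B κ σ lam : ℝ), Lad s N c P → T.Ok s N → T.Cx N P → Z.Ok →
    b + 1 < m → m ≤ s + 1 → D.Ok (b + 1) τ (P m) → (Fintype.card W : ℝ) ≤ P m →
    (Fintype.card A : ℝ) ≤ P m → (∀ a, Dg D.X (b + 1) (φ a)) →
    (∀ a j, |(w a j : ℝ)| ≤ Real.exp (P m)) →
    (∀ k ∈ D.K, ∀ x, toR k ⬝ᵥ D.Φ x = ∑ a, ((w a ⬝ᵥ k : ℤ) : ℝ) * φ a x) → 0 < d →
    (d : ℝ) ≤ lam → lam ≤ Real.exp (P m) →
    (∀ F ∈ tops cl b, Res (S0 T (VF F) m) (D.X.sy F) (fun a => sf D.X F (φ a)) (tF F) τ d lam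
      (P m)) → (∀ z, |Z.Ex0 cl m f θ z| ≤ Real.exp (P m)) → B ≤ Real.exp (P m) →
    Real.exp (-P m) ≤ κ → Real.exp (-P m) ≤ σ → Z.St cl m (D.H Z f θ) B κ σ →
    ∃ (T' : Tow) (Z' : Sys T' W Unit) (B' κ' σ' : ℝ), T'.Ok s N ∧ Z'.Ok ∧ Up m T' T ∧
      T.Grow N T' (fun e => P e ^ c) ∧ B' ≤ Real.exp (P m ^ c) ∧ Real.exp (-P m ^ c) ≤ κ' ∧
      Real.exp (-P 1 ^ c) ≤ σ' ∧ KS Z' cl m f θ b (2 * τ) (P m ^ c) B' κ' σ'

end

end Vale.Agent.P057SY
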