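import Vale.Agent.P057SY.Sym
import Vale.Agent.P057DM.Round
import Vale.Agent.P057DW.Syi
import Vale.Agent.P057HT.Hat
import Vale.Agent.P057PU.Morc
import Vale.Agent.P057DR.Drp
import Vale.Agent.P057SM.Sym1
import Vale.Agent.P057CO.Res
import Vale.Agent.P057FI.Fin
import Vale.Agent.P057XL.Xloc
import Vale.Agent.P057RG.Fin
import Vale.Agent.P057TE.Test

/-!
One round of the symmetric step, with every block wired in.
-/

namespace Vale.Agent.P057SY

/-- one round, unconditionally -/
theorem roundT (s : ℕ) : ROUND s :=
  P057DM.round (P057HT.hat syf s) P057PU.pull (P057PU.morc s)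
    (P057RG.reg (P057TE.test s) (P057XL.event s)) (P057DR.drp s) (symm s (P057SM.sym1 s))
    (P057CO.rel s) fun _ => P057FI.fin (P057XL.xloc s)

/-- the symmetric step, unconditionally -/
theorem syiT (s : ℕ) : SYI s := P057DW.syi (roundT s)

end Vale.Agent.P057SY
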