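import Vale.Agent.P057SY.Alt
import Vale.Agent.P057DP.Box

/-!
The box inequality on a blow-up, followed by linearisation and deletion.
-/

set_option linter.all false

open Matrix Finset
open scoped Real
open Vale.Agent.P267.H775 Vale.Agent.P057G Vale.Agent.P057PC
open Vale.Agent.P057MA (On BI cp blow fce mem_fce mem_fc_blow fc_blow_sub cp_congr cp_snd cp_self
  cp_inj mix_cp fc_blow_cp)
open Vale.Agent.P057DP

namespace Vale.Agent.P057SY

noncomputable section

section th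

variable {L L' : Type} [Fintype L] [DecidableEq L] [Fintype L'] [DecidableEq L']
  {G : Matrix L L ℝ} {G' : Matrix L' L' ℝ}

theorem th_emb (hG : G.PosDef) (hG' : G'.PosDef) {e : L' → L} (he : e.Injective)
    (h : ∀ i j, G' i j = G (e i) (e j)) (ho : ∀ i l, G (e i) l ≠ 0 → l ∈ Set.range e) :
    th G'⁻¹ 0 ≤ th G⁻¹ 0 := by
  refine le_trans (le_of_eq ?_) (th_bk hG (P := fun l => ∃ i, e i = l) ?_)
  · rw [← ms_zero hG', ← ms_zero (posDef_bk hG _)]
    exact ms_equiv (L := {l // ∃ i, e i = l}) (Equiv.ofInjective e he) h fun _ _ => rfl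
  · rintro _ l ⟨i, rfl⟩ hl
    exact by_contra fun k => hl (ho i l k)

theorem th_fib {M : Type} [Fintype M] [DecidableEq M] (hG : G.PosDef) (hG' : G'.PosDef)
    (mo : L' → M) {e : L' → L} (h0 : ∀ i j, mo i ≠ mo j → G' i j = 0)
    (he : ∀ i j, mo i = mo j → e i = e j → i = j)
    (h : ∀ i j, mo i = mo j → G' i j = G (e i) (e j))
    (ho : ∀ i l, G (e i) l ≠ 0 → ∃ j, mo j = mo i ∧ e j = l) :
    th G'⁻¹ 0 ≤ th G⁻¹ 0 ^ Fintype.card M := by
  rw [← ms_zero hG']
  refine ms_zero_le univ _ mo _ hG' h0 (fun _ => mem_univ _) fun x _ => ?_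
  rw [ms_zero (posDef_bk hG' _)]
  refine th_emb hG (posDef_bk hG' _) (e := fun i => e i.1)
    (fun i j k => Subtype.ext (he _ _ (i.2.trans j.2.symm) k))
    (fun i j => h _ _ (i.2.trans j.2.symm)) fun i l k => ?_
  obtain ⟨j, h1, h2⟩ := ho _ l k
  exact ⟨⟨j, h1.trans i.2⟩, h2⟩

end th

variable {V ι E : Type} [DecidableEq V] [Fintype V] [Fintype ι] [DecidableEq ι] [Fintype E]
  [DecidableEq E] {S : MS V ι}

/-- other centres -/
abbrev wp (S : MS V ι) (p : (ι → ℝ) → ι → ℝ) : MS V ι := ⟨S.fc, S.lv, S.G, p⟩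

theorem mb {a : BI S.fc false} {v : V} (hv : v ∈ S.fc a.1.1) :
    (v, a.1.2 v) ∈ (blow S false).fc a := mem_fc_blow.2 ⟨hv, rfl⟩

theorem lo_ok (h : Lo S) : (⟨S.fc, 0, S.G, 0⟩ : MS V ι).Ok :=
  ⟨h.pd, fun i j k => ⟨h.orth i j k, rfl⟩, fun _ _ _ _ => rfl, fun _ _ _ => P057MA.aff_const _ _⟩

theorem G_cp' (h : Lo S) (χ : V → Bool) (i j : ι) :
    (blow S false).G (cp S.fc false χ i) (cp S.fc false χ j) = S.G i j :=
  P057MA.G_cp (lo_ok h) χ i j

theorem p_cp' (h : Lo S) (χ : V → Bool) (z : BI S.fc false → ℝ) (i : ι) :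
    (blow S false).p z (cp S.fc false χ i) = S.p (z ∘ cp S.fc false χ) i :=
  h.loc _ _ _ fun _ hj => congrArg z (cp_congr fun _ hv => cp_snd χ (hj hv))

theorem lo_blow (h : Lo S) : Lo (blow S false) :=
  ⟨⟨(P057MA.ok_blow (lo_ok h) false).pd, fun a z z' k => h.tri _ _ _ fun j hj => k _ hj⟩,
    fun a b k => ((P057MA.ok_blow (lo_ok h) false).orth a b k).1,
    fun a z z' k => h.loc _ _ _ fun j hj => k _ (fc_blow_sub.2 ⟨hj, fun _ hv => cp_snd _ hv⟩)⟩

theorem lo_xt (h : Lo S) {X : Xt V ι E} (hX : X.Ok S) : Lo (xt S X) := by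
  refine ⟨⟨posDef_blocks h.pd hX.pd, fun a z z' k => ?_⟩, fun a b k => ?_, fun a z z' k => ?_⟩
  · rcases a with i | e
    · exact h.tri i _ _ fun j hj => k (Sum.inl j) hj
    · exact hX.loc e _ _ (fun i _ => k (Sum.inl i) ((P057MA.lv_lt (S := S) i).trans_le
        (Nat.le_add_right _ _))) fun e' _ h2 => k (Sum.inr e') (Nat.add_lt_add_left h2 _)
  · rcases a with i | i <;> rcases b with j | j
    exacts [h.orth i j k, absurd rfl k, absurd rfl k, (hX.ort i j k).1]
  · rcases a with i | e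
    · exact h.loc i _ _ fun j hj => k (Sum.inl j) hj
    · exact hX.loc e _ _ (fun i hi => k (Sum.inl i) hi) fun e' h1 _ => k (Sum.inr e') h1

/-- wide extra coordinates hardly change the masses of a blow-up -/
theorem lf_xt (h : Lo S) {X : Xt V ι E} (hX : X.Ok S) {η ε : ℝ} (hL : Lf (blow S false) η)
    (hη : η ≤ 1) (hε : th X.G⁻¹ 0 ^ 2 ^ Fintype.card V ≤ 1 + ε) :
    Lf (blow (xt S X) false) (η + 2 * ε) := fun q hq => by
  have hB := lo_blow (lo_xt h hX)
  let e : BI S.fc false → BI (xt S X).fc false := fun a => ⟨(Sum.inl a.1.1, a.1.2), a.2⟩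
  have he : e.Injective := fun a b k => Subtype.ext (Prod.ext
    (Sum.inl_injective (congrArg (·.1.1) k)) (congrArg (·.1.2) k))
  have me : ∀ a, a ∈ (univ.filter fun a => e a ∈ q).image e ↔ a ∈ q ∧ a.1.1.isLeft := fun a => by
    refine ⟨fun k => ?_, fun k => ?_⟩
    · obtain ⟨b, hb, rfl⟩ := mem_image.1 k
      exact ⟨(mem_filter.1 hb).2, rfl⟩
    · obtain ⟨⟨i | j, χ⟩, ha⟩ := a
      · exact mem_image.2 ⟨⟨(i, χ), ha⟩, mem_filter.2 ⟨mem_univ _, k.1⟩, rfl⟩
      · exact absurd k.2 (by simp)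
  have d1 : Dc (blow S false) (univ.filter fun a => e a ∈ q) := fun a ha b hb =>
    mem_filter.2 ⟨mem_univ _, hq _ (mem_filter.1 ha).2 _ hb⟩
  have h1 : (blow (xt S X) false).mass _ = _ := P057MA.mass_image (S := blow S false) he
    (q := univ.filter fun a => e a ∈ q) (fun _ _ _ _ => rfl) fun z a _ => rfl
  set q₁ := (univ.filter fun a => e a ∈ q).image e
  set r := q.filter fun a => a.1.1.isRight
  have side : ∀ a b : BI (xt S X).fc false, (blow (xt S X) false).G a b ≠ 0 →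
      a.1.1.isLeft = b.1.1.isLeft := by
    rintro ⟨⟨i | i, χ⟩, ha⟩ ⟨⟨j | j, χ'⟩, hb⟩ k
    exacts [rfl, absurd (ite_self _) k, absurd (ite_self _) k, rfl]
  have c1 : Cl (blow (xt S X) false) q₁ := by
    refine ⟨fun a b ha hb => by_contra fun k => hb ((me b).2
      ⟨hq a ((me a).1 ha).1 b (hB.orth a b k).superset, side a b k ▸ ((me a).1 ha).2⟩), ?_⟩
    intro a ha z z' k
    obtain ⟨b, hb, rfl⟩ := mem_image.1 ha
    exact (lo_blow h).loc b (z ∘ e) (z' ∘ e) fun j hj => k _ (mem_image_of_mem e (d1 b hb j hj))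
  have s1 : Sat (blow (xt S X) false).G r := fun a b ha hb => by_contra fun k => hb (mem_filter.2
    ⟨hq a (mem_filter.1 ha).1 b (hB.orth a b k).superset, by
      have := (mem_filter.1 ha).2
      rwa [← Sum.not_isLeft, side a b k, Sum.not_isLeft] at this⟩)
  have e1 : q₁ ∪ r = q := by
    ext a
    rw [mem_union, me, mem_filter, ← and_or_left, ← Sum.not_isLeft]
    exact and_iff_left (_root_.em _)
  have h2 := Ev_split hB.toTr c1 s1 (disjoint_left.2 fun a ha hb => by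
    have := (mem_filter.1 hb).2
    rw [← Sum.not_isLeft] at this
    exact this ((me a).1 ha).2) (f := fun _ => 1) (C := 1) (by simp)
  have rt : ∀ a : r, ∃ j, a.1.1.1 = Sum.inr j := fun a => Sum.isRight_iff.1 (mem_filter.1 a.2).2
  choose f hf using rt
  have gg : ∀ a b : r, blk (blow (xt S X) false).G r a b =
      if a.1.1.2 = b.1.1.2 then X.G (f a) (f b) else 0 := fun a b => by
    change (if _ then (xt S X).G a.1.1.1 b.1.1.1 else 0) = _
    rw [hf, hf]; rfl
  have h3 : ∀ y, |fm (blow (xt S X) false) r y - 1| ≤ ε := fun y => by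
    refine (wid (posDef_blk hB.pd r) (fun a b k => ?_) (hB.tri_fp r y)).trans
      (sub_le_iff_le_add'.2 (le_trans ?_ hε))
    · rw [gg]
      refine ite_eq_right_iff.2 fun _ => by_contra fun c => k ?_
      change (xt S X).lv a.1.1.1 = (xt S X).lv b.1.1.1
      rw [hf, hf]
      exact congrArg (_ + ·) (hX.ort _ _ c).2
    · refine (th_fib hX.pd (posDef_blk hB.pd r) (fun a => a.1.1.2) (e := f)
        (fun a b k => by rw [gg, if_neg k]) (fun a b k c => Subtype.ext (Subtype.ext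
          (Prod.ext (by rw [hf, hf, c]) k))) (fun a b k => by rw [gg, if_pos k])
        fun a l k => ?_).trans (by simp)
      have hl : (xt S X).fc (Sum.inr l) = (xt S X).fc a.1.1.1 := by
        rw [hf]; exact (hX.ort _ _ k).1.symm
      let b : BI (xt S X).fc false := ⟨(Sum.inr l, a.1.1.2), fun v hv => a.1.2 v (hl ▸ hv)⟩
      have hb : b ∈ r := mem_filter.2 ⟨hq _ (mem_filter.1 a.2).1 b
        (fc_blow_sub.2 ⟨hl.subset, fun _ _ => rfl⟩), rfl⟩
      exact ⟨⟨b, hb⟩, rfl, (Sum.inr_injective (hf ⟨b, hb⟩)).symm⟩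
  have h4 := hB.norm_Ev q₁ (f := fun y => ((fm (blow (xt S X) false) r y - 1 : ℝ) : ℂ)) (C := ε)
    fun y => by rw [Complex.norm_real]; exact h3 y
  obtain ⟨B, hB2⟩ := hB.fm_bdd r
  have h5 : Ev (blow (xt S X) false) q₁ (fun y => ((fm (blow (xt S X) false) r y - 1 : ℝ) : ℂ)) =
      (((blow (xt S X) false).mass q - (blow (xt S X) false).mass q₁ : ℝ) : ℂ) := by
    rw [Complex.ofReal_sub, ← Ev_one, ← Ev_one, ← e1, h2, funext (Fb_one _ r)]
    simp only [Ev, Complex.ofReal_sub, mul_sub]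
    exact (hB.summable_Ev q₁ (C := B) fun y => by
      rw [Complex.norm_real, Real.norm_of_nonneg (fm_nonneg _ _ _)]; exact hB2 y).tsum_sub
      (hB.summable_Ev q₁ (C := 1) (by simp))
  rw [h5, Complex.norm_real, Real.norm_eq_abs, h1] at h4
  have h6 := mul_le_mul_of_nonneg_left (hL.le hη d1) ((abs_nonneg _).trans (h3 0))
  exact (abs_sub_le _ _ _).trans ((add_le_add h4 (hL _ d1)).trans (by linarith))

/-- change of the copy of the vertex `u` -/
def fl (u : V) (χ : V → Bool) (v : V) : Bool := if v = u then !χ v else χ v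

theorem fl_fl (u : V) (χ : V → Bool) : fl u (fl u χ) = χ := by
  funext v; unfold fl; split_ifs <;> simp

/-- the symmetry of the blow-up -/
def tu (fc : ι → Finset V) (u : V) (a : BI fc false) : BI fc false := cp fc false (fl u a.1.2) a.1.1

theorem tu_cp {fc : ι → Finset V} (u : V) (χ : V → Bool) (k : ι) :
    tu fc u (cp fc false χ k) = cp fc false (fl u χ) k :=
  cp_congr fun v hv => by unfold fl; rw [cp_snd (k := k) χ hv]

theorem flip_blow (h : Lo S) (u : V) : Flip (blow S false) (fun v => v.1 = u) Prod.snd (tu S.fc u)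
    fun v => (v.1, if v.1 = u then !v.2 else v.2) := by
  refine ⟨fun a => ?_, fun v => ?_, fun a => ?_, fun v hv => ⟨hv, if_pos hv⟩,
    fun v hv => Prod.ext rfl (if_neg hv), fun a ha => ?_, fun a b => ?_, fun z a => ?_⟩
  · exact (tu_cp u _ _).trans (by rw [fl_fl, cp_self])
  · refine Prod.ext rfl ?_
    by_cases k : v.1 = u <;> simp [k]
  · rw [tu, fc_blow_cp]
    exact Eq.symm image_image
  · exact (cp_congr fun v hv => if_neg (ha _ (mb hv))).trans (cp_self a)
  · by_cases k : S.fc a.1.1 = S.fc b.1.1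
    · refine if_congr ⟨fun c => funext fun v => ?_, fun c => ?_⟩ rfl rfl
      · by_cases hv : v ∈ S.fc a.1.1
        · have := congrFun c v
          rw [tu, tu, cp_snd _ hv, cp_snd _ (k ▸ hv), fl, fl] at this
          split_ifs at this
          exacts [Bool.not_inj this, this]
        · rw [a.2 v hv, b.2 v (k ▸ hv)]
      · funext v
        simp only [tu, cp, c, k]
    · have : S.G a.1.1 b.1.1 = 0 := by_contra fun c => k (h.orth _ _ c)
      exact (ite_eq_right_iff.2 fun _ => this).trans (ite_eq_right_iff.2 fun _ => this).symm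
  · rw [tu, p_cp' h]
    exact congrArg (S.p · a.1.1) (funext fun k => congrArg z (tu_cp u _ k).symm)

theorem alt_cp (χ : V → Bool) (I : Finset V) (f : (ι → ℝ) → ℝ) (z : BI S.fc false → ℝ) :
    (blow S false).alt (I.image fun v => (v, χ v)) (fun z => f (z ∘ cp S.fc false χ)) z =
      S.alt I f (z ∘ cp S.fc false χ) :=
  alt_map (fun _ _ _ _ e => congrArg Prod.fst e) (fun v _ y => mix_cp χ v 0 y) f z

theorem indep_cp {χ : V → Bool} {v : V} (hv : χ v = true) (x y : BI S.fc false → ℝ) :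
    mix ((blow S false).st (v, false)) x y ∘ cp S.fc false χ = y ∘ cp S.fc false χ :=
  funext fun k => mix_neg _ _ fun c => by
    obtain ⟨h1, h2⟩ := mem_fc_blow.1 ((MS.mem_st _).1 c)
    rw [cp_snd (k := k) χ h1, hv] at h2
    exact absurd h2 (by simp)

/-- deletion of vertices from a linearised system -/
theorem del_lnr (h : S.Ok) (hne : ∀ i, (S.fc i).Nonempty) {Q : Finset ι} (hQ : Dc S Q) {η : ℝ}
    (hU : ∀ q ⊆ Q, Dc S q → (S.lnr univ).mass q ≤ 1 + η) (I : Finset V) {θ : (ι → ℝ) → ℝ}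
    (hI : I.Nonempty) (h1 : ∀ v ∈ I, Aff (S.st v) θ) (ho : On (fce S I) (S.alt I θ)) :
    ‖Ev S Q fun z => ee (θ (toR z))‖ ≤ (S.lnr I).bias (Q ∩ fce S I) (S.alt I θ) /
      vl S.G (Q ∩ fce S I) + Fintype.card V * (2 ^ Fintype.card V * η) := by
  have hd : ∀ U, Dc S (Q \ S.sts U) := fun U i hi j hj => mem_sdiff.2
    ⟨hQ i (mem_sdiff.1 hi).1 j hj, fun k => (mem_sdiff.1 hi).2 (by
      obtain ⟨v, a, b⟩ := MS.mem_sts.1 k
      exact MS.mem_sts.2 ⟨v, a, hj b⟩)⟩
  have sat : ∀ q, Dc S q → Sat S.G q := fun q hq => h.sat fun i j a _ hi => hq i hi j a.superset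
  have e : Q \ (S.lnr I).sts (univ \ I) = Q ∩ fce S I := by
    ext i
    simp only [mem_sdiff, mem_inter, MS.mem_sts, mem_fce, mem_univ, true_and]
    exact and_congr_right fun _ => ⟨fun k v hv => by_contra fun c => k ⟨v, c, hv⟩,
      fun k ⟨v, a, b⟩ => a (k b)⟩
  have η0 : 0 ≤ η := by
    have := hU ∅ (empty_subset _) fun _ k => absurd k (notMem_empty _)
    rw [MS.mass_empty] at this; linarith
  have h2 := (h.lnr I).norm_del_sts Q (M := 2 ^ Fintype.card V * η) (univ \ I) (fun v hv U _ => by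
      have a1 := (h.mass_lnr_mono (Q \ S.sts U) (subset_univ (insert v I))).trans
        (hU _ sdiff_subset (hd U))
      have a2 := (h.mass_ge' (I := univ) (fun _ => subset_univ _) hne (sat _ (hd (insert v U)))
        (hU _ sdiff_subset (hd _))).trans (h.mass_le_lnr _ I)
      rw [MS.lnr_insert (mem_sdiff.1 hv).2] at a1
      rw [card_univ] at a2
      exact (sub_le_sub a1 a2).trans (by linarith))
    (f := fun z => ee (S.alt I θ (toR z))) (C := 1) (fun _ => (norm_ee _).le)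
    fun z z' k => congrArg ee (ho _ _ fun i hi => congrArg Int.cast (k i fun c => by
      obtain ⟨v, a, b⟩ := MS.mem_sts.1 c
      exact (mem_sdiff.1 a).2 (mem_fce.1 hi b)))
  obtain ⟨v, hv⟩ := hI
  have h3 := fun q => (h.lnr I).tsum_ee' (h.cenAt_lnr hv) q (θ := S.alt I θ)
    (MS.lin_alt (S := S) hv (h1 v hv))
  rw [e, h3, h3, ← Complex.ofReal_div, ← Complex.ofReal_div, ← Complex.ofReal_sub,
    Complex.norm_real, one_mul] at h2
  have h4 := div_le_div_of_nonneg_right (h.norm_le_bias Q ⟨v, hv⟩ h1) (vl_pos h.pd Q).le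
  have h5 : ‖Ev S Q fun z => ee (θ (toR z))‖ =
      ‖∑' z, (S.wt Q z : ℂ) * ee (θ (toR z))‖ / vl S.G Q := by
    rw [← Real.norm_of_nonneg (vl_pos h.pd Q).le, ← Complex.norm_real, ← norm_div, ← tsum_div_const]
    exact congrArg norm (tsum_congr fun z => by rw [nw]; push_cast; ring)
  have h6 : (((univ \ I).card : ℕ) : ℝ) * (2 ^ Fintype.card V * η) ≤
      Fintype.card V * (2 ^ Fintype.card V * η) :=
    mul_le_mul_of_nonneg_right (Nat.cast_le.2 (card_le_univ _)) (by positivity)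
  rw [h5]
  exact h4.trans (sub_le_iff_le_add'.1 (((le_abs_self _).trans h2).trans h6))

/-- the lowest copy -/
abbrev c0 (S : MS V ι) : ι → BI S.fc false := cp S.fc false fun _ => false

/-- the labels of the rectangle -/
def rq (S : MS V ι) (a b s : V) : Finset (BI S.fc false) :=
  db (tu S.fc a) (db (tu S.fc b) (av (blow S false) (fun v => v.1 = s) (univ.image (c0 S))))

/-- the phase on the rectangle -/
def rp (S : MS V ι) (a b : V) (θ : (ι → ℝ) → ℝ) (z : BI S.fc false → ℝ) : ℝ :=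
  θ (z ∘ c0 S) - θ (z ∘ cp S.fc false (fl b fun _ => false)) -
    θ (z ∘ cp S.fc false (fl a fun _ => false)) + θ (z ∘ cp S.fc false (fl a (fl b fun _ => false)))

theorem mem_c0 {x : BI S.fc false} :
    x ∈ univ.image (c0 S) ↔ ∀ v ∈ (blow S false).fc x, v.2 = false := by
  refine ⟨fun k v hv => ?_, fun k => mem_image.2 ⟨x.1.1, mem_univ _, (cp_congr fun v hv =>
    (k _ (mb hv)).symm).trans (cp_self x)⟩⟩
  obtain ⟨i, -, rfl⟩ := mem_image.1 k
  obtain ⟨h1, h2⟩ := mem_fc_blow.1 hv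
  exact h2.symm.trans (cp_snd (k := i) _ h1)

theorem dc_c0 : Dc (blow S false) (univ.image (c0 S)) := fun x hx y k =>
  mem_c0.2 fun v hv => mem_c0.1 hx v (k hv)

theorem dc_rq (h : Lo S) (a b s : V) : Dc (blow S false) (rq S a b s) :=
  (flip_blow h a).dc ((flip_blow h b).dc (dc_c0.av _))

theorem rq_av (h : Lo S) {a b s : V} {x : BI S.fc false} (hx : x ∈ rq S a b s) :
    s ∉ S.fc x.1.1 := by
  have t : ∀ y ∈ av (blow S false) (fun v => v.1 = s) (univ.image (c0 S)), s ∉ S.fc y.1.1 :=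
    fun y hy k => (mem_av.1 hy).2 _ (mb k) rfl
  rcases (flip_blow h a).mem_db.1 hx with k | k <;> rcases (flip_blow h b).mem_db.1 k with k | k
  all_goals exact (t _ k :)

theorem gb1 (h : Lo S) {a b s : V} (ab : a ≠ b) (as : a ≠ s) (bs : b ≠ s) {η : ℝ}
    (L1 : Lf (blow S false) η) (hη : η ≤ 1) {θ : (ι → ℝ) → ℝ}
    (o1 : ∀ z z', (∀ i, s ∉ S.fc i → z i = z' i) → θ z = θ z')
    {A B : (ι → ℤ) → ℂ} (hA : ∀ z, ‖A z‖ ≤ 1) (hB : ∀ z, ‖B z‖ ≤ 1)
    (dA : ∀ z z', (∀ i, b ∉ S.fc i → z i = z' i) → A z = A z')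
    (dB : ∀ z z', (∀ i, a ∉ S.fc i → z i = z' i) → B z = B z') :
    ‖Ev S univ fun z => A z * (B z * ee (θ (toR z)))‖ ^ 4 ≤
      8 * (‖Ev (blow S false) (rq S a b s) fun z => ee (rp S a b θ (toR z))‖ + 3 * √η) := by
  have dn : ∀ u, Dn (blow S false) (fun v => v.1 = u) Prod.snd (univ.image (c0 S)) :=
    fun u x hx v hv _ => mem_c0.1 hx v hv
  have dp : ∀ u (f : (ι → ℤ) → ℂ), (∀ z z', (∀ i, u ∉ S.fc i → z i = z' i) → f z = f z') →
      Dp (av (blow S false) (fun v => v.1 = u) (univ.image (c0 S))) fun z => f (z ∘ c0 S) :=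
    fun u f hf z z' k => hf _ _ fun i hi => k _ (mem_av.2 ⟨mem_image_of_mem _ (mem_univ _),
      fun v hv e => hi (e ▸ (mem_fc_blow.1 hv).1)⟩)
  have h1 := box (lo_blow h) (flip_blow h a) (flip_blow h b) (flip_blow h s)
    (fun v k c => ab (c.symm.trans k)) (fun v k c => as (k.symm.trans c))
    (fun v k c => bs (k.symm.trans c)) dc_c0 (dn a) (dn b) (dn s) L1 hη
    (A := fun z => A (z ∘ c0 S)) (B := fun z => B (z ∘ c0 S))
    (Φ := fun z => ee (θ (toR (z ∘ c0 S))))
    (fun _ => hA _) (fun _ => hB _) (fun _ => (norm_ee _).le) (dp b A dA) (dp a B dB)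
    (dp s (fun z => ee (θ (toR z))) fun z z' k =>
      congrArg ee (o1 _ _ fun i hi => congrArg Int.cast (k i hi)))
  rw [Ev_image (cp_inj _ _ _) (fun i _ j _ => G_cp' h _ i j) (fun z i _ => p_cp' h _ z i)
    fun z => A z * (B z * ee (θ (toR z)))] at h1
  refine h1.trans (le_of_eq (congrArg (fun f => 8 * (‖Ev _ _ f‖ + _)) (funext fun z => ?_)))
  have t : ∀ u χ, tu S.fc u ∘ cp S.fc false χ = cp S.fc false (fl u χ) :=
    fun u χ => funext (tu_cp u χ)
  simp only [P057DP.bx, ← ee_neg, ← ee_add, Function.comp_assoc, t, rp]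
  congr 1
  change _ = θ (toR (z ∘ _)) - θ (toR (z ∘ _)) - θ (toR (z ∘ _)) + θ (toR (z ∘ _))
  ring

theorem alt_rp {a b : V} (ab : a ≠ b) {I : Finset V} (ha : a ∈ I) (hb : b ∈ I)
    (θ : (ι → ℝ) → ℝ) : (blow S false).alt (I.image fun v => (v, false)) (rp S a b θ) =
      fun z => S.alt I θ (z ∘ c0 S) := funext fun z => by
  have z0 : ∀ χ, ∀ u ∈ I, χ u = true → (blow S false).alt (I.image fun v => (v, false))
      (fun z => θ (z ∘ cp S.fc false χ)) z = 0 := fun χ u hu k =>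
    P057MA.alt_indep (mem_image_of_mem _ hu) (fun x y => by rw [indep_cp k]) z
  unfold rp
  rw [alt_add, alt_sub, alt_sub, z0 (fl b _) b hb (by simp [fl]), z0 (fl a _) a ha (by simp [fl]),
    z0 (fl a _) a ha (by simp [fl, ab]), alt_cp fun _ => false]
  ring

theorem aff_rp (a b : V) {I : Finset V} {θ : (ι → ℝ) → ℝ} (hθ : ∀ v ∈ I, Aff (S.st v) θ) :
    ∀ v ∈ I.image fun v => (v, false), Aff ((blow S false).st v) (rp S a b θ) := fun v hv => by
  obtain ⟨u, hu, rfl⟩ := mem_image.1 hv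
  have af : ∀ χ, Aff ((blow S false).st (u, false)) fun z => θ (z ∘ cp S.fc false χ) := fun χ => by
    cases k : χ u
    · exact k ▸ P057MA.aff_cp χ (hθ u hu)
    · exact P057MA.aff_of_indep fun x y => by rw [indep_cp k]
  exact P057MA.aff_add (((af _).sub (af _)).sub (af _)) (af _)

theorem rq_inter {a b s : V} {I : Finset V} (hs : s ∉ I) :
    rq S a b s ∩ fce (blow S false) (I.image fun v => (v, false)) = (fce S I).image (c0 S) := by
  ext x
  rw [mem_inter, mem_fce, mem_image]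
  refine ⟨fun k => ?_, ?_⟩
  · obtain ⟨i, -, rfl⟩ := mem_image.1 (mem_c0.2 fun v hv => by
      obtain ⟨u, -, rfl⟩ := mem_image.1 (k.2 hv); rfl)
    refine ⟨i, mem_fce.2 fun v hv => ?_, rfl⟩
    obtain ⟨u, hu, e⟩ := mem_image.1 (k.2 (mb (a := c0 S i) hv))
    exact (show u = v from congrArg Prod.fst e) ▸ hu
  · rintro ⟨i, hi, rfl⟩
    refine ⟨mem_union_left _ (mem_union_left _ (mem_av.2 ⟨mem_image_of_mem _ (mem_univ _),
      fun v hv e => hs (e ▸ mem_fce.1 hi (mem_fc_blow.1 hv).1)⟩)), ?_⟩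
    rw [fc_blow_cp]
    exact image_subset_image (mem_fce.1 hi)

theorem gb2 (h : S.Ok) (hne : ∀ i, (S.fc i).Nonempty) {Q : Finset (BI S.fc false)}
    (dQ : Dc (blow S false) Q) {I : Finset V} (hI : I.Nonempty)
    (e3 : Q ∩ fce (blow S false) (I.image fun v => (v, false)) = (fce S I).image (c0 S)) {η : ℝ}
    (hU : ∀ r ⊆ Q, Dc (blow S false) r → ((blow S false).lnr univ).mass r ≤ 1 + η)
    {Θ : (BI S.fc false → ℝ) → ℝ} {ψ : (ι → ℝ) → ℝ}
    (h1 : ∀ v ∈ I.image fun v => (v, false), Aff ((blow S false).st v) Θ)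
    (e2 : (blow S false).alt (I.image fun v => (v, false)) Θ = fun z => ψ (z ∘ c0 S))
    (o2 : On (fce S I) ψ) : ‖Ev (blow S false) Q fun z => ee (Θ (toR z))‖ ≤
      (S.lnr I).bias (fce S I) ψ / vl S.G (fce S I) +
        2 * Fintype.card V * (4 ^ Fintype.card V * η) := by
  have h2 := del_lnr (P057MA.ok_blow h false) (fun x => (hne _).image _) dQ hU _ (hI.image _) h1
    (by
      rw [e2]
      exact fun z z' k => o2 _ _ fun i hi =>
        k _ (mem_inter.1 (e3.superset (mem_image_of_mem _ hi))).2)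
  rw [e2, e3, P057MA.vl_cp h, P057MA.bias_image (S := S.lnr I) (S' := (blow S false).lnr _) (cp_inj _ _ _)
    (fun i _ j _ => P057MA.G_cp h _ i j) fun z i _ => ?_] at h2
  · refine h2.trans (le_of_eq ?_)
    rw [Fintype.card_prod, Fintype.card_bool, pow_mul', Nat.cast_mul]
    norm_num [mul_comm]
  · change (blow S false).alt ((blow S false).fc (c0 S i) ∩ I.image fun v => (v, false))
      (fun z => (blow S false).p z (c0 S i)) z = S.alt (S.fc i ∩ I) (fun z => S.p z i) _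
    rw [fc_blow_cp, ← image_inter _ _ fun _ _ e => congrArg Prod.fst e, ← alt_cp]
    simp only [P057MA.p_cp h]

/-- the box inequality: from a correlation with two bounded functions to a bias on the symbol -/
theorem gb {p q : (ι → ℝ) → ι → ℝ} (h : Lo S) (h5 : (wp S p).Ok) (hne : ∀ i, (S.fc i).Nonempty)
    {a b s : V} (ab : a ≠ b) {I : Finset V} (ha : a ∈ I) (hb : b ∈ I) (hs : s ∉ I)
    (hp : ∀ z i, s ∉ S.fc i → p z i = S.p z i)
    (hq : ∀ z i, s ∉ S.fc i → q z i = S.alt (S.fc i) (fun z => p z i) z) {η : ℝ}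
    (L1 : Lf (blow S false) η) (L0 : Lf (blow (wp S q) false) η) (hη : η ≤ 1)
    {θ : (ι → ℝ) → ℝ} (hθ : ∀ v ∈ I, Aff (S.st v) θ)
    (o1 : ∀ z z', (∀ i, s ∉ S.fc i → z i = z' i) → θ z = θ z') (o2 : On (fce S I) (S.alt I θ))
    {A B : (ι → ℤ) → ℂ} (hA : ∀ z, ‖A z‖ ≤ 1) (hB : ∀ z, ‖B z‖ ≤ 1)
    (dA : ∀ z z', (∀ i, b ∉ S.fc i → z i = z' i) → A z = A z')
    (dB : ∀ z z', (∀ i, a ∉ S.fc i → z i = z' i) → B z = B z') :
    ‖Ev S univ fun z => A z * (B z * ee (θ (toR z)))‖ ^ 4 ≤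
      8 * (((wp S p).lnr I).bias (fce S I) (S.alt I θ) / vl S.G (fce S I) +
        2 * Fintype.card V * (4 ^ Fintype.card V * η) + 3 * √η) := by
  refine (gb1 h ab (s := s) (fun e => hs (e ▸ ha)) (fun e => hs (e ▸ hb)) L1 hη o1 hA hB dA dB).trans
    (mul_le_mul_of_nonneg_left (add_le_add_left ?_ _) (by norm_num))
  have e1 : ∀ f, Ev (blow S false) (rq S a b s) f = Ev (blow (wp S p) false) (rq S a b s) f :=
    fun f => tsum_congr fun z => congrArg (fun t : ℝ => ((t / _ : ℝ) : ℂ) * _)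
      (MS.wt_congr (S := blow (wp S p) false) (S' := blow S false) rfl
        (fun y x hx => (hp _ _ (rq_av h hx)).symm) z)
  rw [e1]
  refine gb2 h5 hne (dc_rq h a b s) ⟨a, ha⟩ (rq_inter (S := S) hs) (fun r hr dr => ?_)
    (aff_rp (S := S) a b hθ) (alt_rp (S := S) ab ha hb θ) o2
  have : ((blow (wp S p) false).lnr univ).mass r = (blow (wp S q) false).mass r :=
    congrArg (· / _) (tsum_congr (MS.wt_congr (S := blow (wp S q) false)
      (S' := (blow (wp S p) false).lnr univ) rfl fun y x hx => by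
      refine Eq.trans ?_ ((alt_cp (S := S) x.1.2 _ (fun z => p z x.1.1) y).trans
        (hq _ _ (rq_av h (hr hx))).symm)
      exact congrArg (fun A => (blow S false).alt A (fun z => p (z ∘ cp S.fc false x.1.2) x.1.1) y)
        (inter_univ ((blow S false).fc x))))
  rw [this]
  linarith [(abs_le.1 (L0 r dr)).2]

end

end Vale.Agent.P057SY
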