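import Vale.Agent.P057SY.Blw
import Vale.Agent.P057PU.Pull
import Vale.Agent.P057PC.Cub

/-!
Cube systems with the special vertex `none`: blow-ups, symbols.
-/

set_option linter.all false

open Matrix Finset
open Vale.Agent.P267.H775 Vale.Agent.P057G Vale.Agent.P057PC Vale.Agent.P057TP
open Vale.Agent.P057MA (On BI cp blow fce mem_fce mem_fc_blow fc_blow_sub cp_congr cp_snd cp_self)
open Vale.Agent.P057DP Vale.Agent.P057PL
open Vale.Agent.P057TE (SL fr)
open Vale.Agent.P057GH (pb)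

namespace Vale.Agent.P057SY

noncomputable section

variable {C W : Type} [Fintype W] [DecidableEq W] {T : Tow} {cl : W → C} {m s : ℕ} {N a : ℝ}
  {Z : Sys T W Unit} {c : Lb T cl Unit m → ℝ}

/-- the cube system -/
abbrev cb (Z : Sys T W Unit) (cl : W → C) (m : ℕ) (a : ℝ) (c : Lb T cl Unit m → ℝ) :
    MS (Option W) (Lb T cl Unit m) :=
  ⟨fo, fun l => T.lv l.cd, sG T cl Unit m fun _ _ => a, fun x => Z.pr cl m x + c⟩

theorem lo_cb (hT : T.Ok s N) (hZ : Z.Ok) (ha : 0 < a) : Lo (cb Z cl m a c) := by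
  have h := lo_cub (cl := cl) (m := m) (c := c) (a := fun _ _ => a) hT hZ fun _ _ => ha
  refine ⟨⟨h.pd, h.tri⟩, fun i j k => ?_, fun i z z' k => h.loc i z z' fun j hj =>
    k j (fo_sub.2 (cub_sub.1 hj))⟩
  exact Subset.antisymm (fo_sub.2 (cub_sub.1 (h.orth i j k).subset))
    (fo_sub.2 (cub_sub.1 (h.orth i j k).superset))

theorem fo_ne (hT : T.Ok s N) (l : Lb T cl Unit m) : (fo l).Nonempty := by
  by_cases h : l.bs = none
  · obtain ⟨w, hw⟩ := card_pos.1 ((l.card_eq h).symm ▸ hT.pos l.cd)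
    exact ⟨some w, (some_fo l w).2 hw⟩
  · exact ⟨none, (none_fo l).2 h⟩

/-- a label on a transversal of the doubled vertices -/
def lf2 (χ : Option W → Bool) : Lb T cl Unit m → Lb T (cl ∘ Prod.fst : W × Bool → C) Bool m :=
  P057GH.lift (j := fun v => (v, χ (some v))) (fun _ _ => Iff.rfl) fun _ => χ none

theorem lf2_congr {χ χ' : Option W → Bool} {l : Lb T cl Unit m} (h : ∀ v ∈ fo l, χ v = χ' v) :
    lf2 χ l = lf2 χ' l := by
  refine Lb.ext' rfl (image_congr fun v hv => congrArg (Prod.mk v) (h _ ((some_fo l v).2 hv))) ?_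
  change l.bs.map _ = l.bs.map _
  by_cases k : l.bs = none
  · rw [k]; rfl
  · rw [h none ((none_fo l).2 k)]

theorem lf_cb (hT : T.Ok s N) (hZ : Z.Ok) (ha : 0 < a) {d n : ℕ} {Λ η : ℝ} (hd : m ≤ d + 1)
    (hL : T.tw.LF d n Λ η) (hn : 2 * Fintype.card W + 2 ≤ n)
    (hΛ : a ≤ Λ / ((n + 1) * (s + 1) ^ s)) : Lf (blow (cb Z cl m a c) false) η := fun q hq => by
  let e : BI (fo : Lb T cl Unit m → _) false → Lb T (cl ∘ Prod.fst : W × Bool → C) Bool m :=
    fun x => lf2 x.1.2 x.1.1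
  let Z1 : Sys T (W × Bool) Bool := pb Z Prod.fst fun _ => ()
  have j1 : ∀ χ : Option W → Bool, Function.Injective fun v => (v, χ (some v)) :=
    fun χ _ _ h => congrArg Prod.fst h
  have j2 : ∀ b : Bool, Function.Injective fun _ : Unit => b := fun _ _ _ _ => rfl
  have sub : ∀ x y, (e x).fc ⊆ (e y).fc → ((e x).bs = none ∨ (e x).bs = (e y).bs) →
      (blow (cb Z cl m a c) false).fc x ⊆ (blow (cb Z cl m a c) false).fc y := by
    rintro x y h1 h2 ⟨_ | w, γ⟩ hv <;> obtain ⟨h3, h4⟩ := mem_fc_blow.1 hv <;>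
      refine mem_fc_blow.2 ?_
    · obtain ⟨u, hu⟩ := Option.ne_none_iff_exists'.1 ((none_fo _).1 h3)
      have h5 : (e x).bs = some γ := by
        change x.1.1.bs.map _ = _
        rw [hu]; exact congrArg some h4
      rw [h5] at h2
      obtain ⟨u', h6, h7⟩ := Option.map_eq_some_iff.1 (h2.resolve_left (by simp)).symm
      exact ⟨(none_fo _).2 (by rw [h6]; simp), h7⟩
    · obtain ⟨u, h5, h6⟩ := mem_image.1 (h1 (mem_image_of_mem _ ((some_fo _ _).1 h3)))
      obtain ⟨rfl, h7⟩ := Prod.ext_iff.1 h6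
      exact ⟨(some_fo _ _).2 h5, h7.trans h4⟩
  have eq : ∀ x y, (e x).fc = (e y).fc → (e x).bs = (e y).bs → x.1.2 = y.1.2 := fun x y h1 h2 =>
    (P057TE.bfc_eq.1 (Subset.antisymm (sub x y h1.subset (Or.inr h2))
      (sub y x h1.superset (Or.inr h2.symm)))).1
  have he : e.Injective := fun x y h => by
    have k := eq x y (congrArg Lb.fc h) (congrArg Lb.bs h)
    refine Subtype.ext (Prod.ext (P057GH.lift_inj (cl := cl ∘ Prod.fst) (fun _ _ => Iff.rfl)
      (j1 x.1.2) (j2 (x.1.2 none)) ?_) k)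
    exact h.trans (congrArg (lf2 · y.1.1) k.symm)
  have ec : ∀ χ l, e (cp fo false χ l) = lf2 χ l := fun χ l => lf2_congr fun v hv => cp_snd χ hv
  have h1 := lf_cub (cl := cl ∘ Prod.fst) (c := Function.extend e (fun x => c x.1.1) 0)
    (a := fun _ _ => a) P057PC.cub hT (P057GH.ok_pb hZ Prod.fst fun _ : Bool => ())
    (fun _ _ => ha) hd hL (by simpa [mul_comm] using hn) (fun _ _ => hΛ) (q.image e) fun _ hx k hk => by
      obtain ⟨x, hx', rfl⟩ := mem_image.1 hx
      obtain ⟨l, rfl⟩ := P057GH.mem_lift (cl := cl ∘ Prod.fst) (cl' := cl)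
        (j := fun v => (v, x.1.2 (some v))) (fun _ _ => Iff.rfl) (j1 x.1.2)
        (cub_sub.1 hk).1 (cub_sub.1 hk).2
      refine mem_image.2 ⟨cp fo false x.1.2 l, hq x hx' _ (sub _ _ ?_ ?_), ec _ _⟩ <;> rw [ec]
      exacts [(cub_sub.1 hk).1, (cub_sub.1 hk).2]
  rwa [P057MA.mass_image (S := blow (cb Z cl m a c) false) he (fun x _ y _ => ?_)
    fun z x _ => ?_] at h1
  · change a * Gam T _ Bool m (e x) (e y) = if x.1.2 = y.1.2 then a * Gam T cl Unit m _ _ else 0
    split_ifs with k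
    · exact (congrArg (fun χ => a * Gam T _ Bool m (e x) (lf2 χ y.1.1)) k.symm).trans
        (congrArg (a * ·) (P057GH.Gam_lift (cl := cl ∘ Prod.fst) (fun _ _ => Iff.rfl) (j1 x.1.2)
          (j2 (x.1.2 none)) _ _))
    · exact mul_eq_zero_of_right _ (by_contra fun h => k (eq x y (Gam_ne h).1 (Gam_ne h).2))
  · change Z1.pr _ m z (e x) + _ = Z.pr cl m (z ∘ e ∘ cp fo false x.1.2) x.1.1 + c x.1.1
    rw [he.extend_apply, show e ∘ cp fo false x.1.2 = lf2 x.1.2 from funext (ec _)]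
    refine congrArg (· + _) ((P057GH.pr_lift (cl := cl ∘ Prod.fst) (fun _ _ => Iff.rfl) (j1 x.1.2)
      (j2 (x.1.2 none)) Z1 z x.1.1).symm.trans (P057GH.pr_ext (fun B _ => ?_) _))
    rw [P057GH.at_pb _ _ _ (j1 _).injOn, P057GH.at_pb _ _ _ fun u hu v hv h => ?_, image_image]
    · congr 1
      · cases x.1.1.bs <;> rfl
      · exact image_id
    · obtain ⟨u, -, rfl⟩ := mem_image.1 hu
      obtain ⟨v, -, rfl⟩ := mem_image.1 hv
      rw [show u = v from h]

/-- the system without lower order terms -/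
def z0 (T : Tow) (W : Type) : Sys T W Unit :=
  ⟨⟨fun _ k => MvPolynomial.map MvPolynomial.C (T.q k)⟩, fun _ _ => 0⟩

theorem ok_z0 (hT : T.Ok s N) : (z0 T W).Ok := by
  refine ⟨⟨fun _ k => JH.of_hom (hT.hom k), fun _ _ => rfl⟩, fun k => ?_⟩
  have e : (MvPolynomial.constantCoeff : Lam ℝ W →+* ℝ).comp MvPolynomial.C = RingHom.id ℝ :=
    RingHom.ext fun r => by simp
  simp only [Fam.top, z0, MvPolynomial.map_map, e, MvPolynomial.map_id]

theorem pr_co (hZ : Z.Ok) (x : Lb T cl Unit m → ℝ) {l : Lb T cl Unit m} (hl : l.bs = none) :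
    Z.pr cl m x l = MvPolynomial.coeff (Multiset.toFinsupp (fo l).val)
      (MvPolynomial.eval (P057TP.lift x none) (Z.fam.fn none l.cd)) := by
  rw [← P057PU.ex_eq (Or.inl hl), ← hl]
  exact sb_cf hZ.fam x hl

theorem alt_pr (hT : T.Ok s N) (hZ : Z.Ok) (x : Lb T cl Unit m → ℝ) {l : Lb T cl Unit m}
    (hl : l.bs = none) :
    (sk T cl m).alt (fo l) (fun y => Z.pr cl m y l) x = (z0 T W).pr cl m x l := by
  simp only [pr_co hZ _ hl, pr_co (ok_z0 hT) _ hl]
  rw [P057PU.alt_cf]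
  exact congrArg (fun p => MvPolynomial.coeff _ (MvPolynomial.eval _ (MvPolynomial.map _ p)))
    (hZ.top l.cd)

/-- the centres of the labels without base -/
def pn (Z : Sys T W Unit) (c x : Lb T cl Unit m → ℝ) (l : Lb T cl Unit m) : ℝ :=
  if l.bs = none then Z.pr cl m x l + c l else 0

theorem ok_pn (hT : T.Ok s N) (hZ : Z.Ok) (ha : 0 < a) : (wp (cb Z cl m a c) (pn Z c)).Ok := by
  have h := lo_cb (cl := cl) (m := m) (c := c) hT hZ ha
  refine ⟨h.pd, fun i j k => ⟨h.orth i j k, by_contra fun e => k (mul_eq_zero_of_right _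
    (P057SH.gam_blk hT i j e))⟩, fun i z z' k => ?_, fun v i hv => ?_⟩
  · exact if_congr Iff.rfl (congrArg (· + _) (P057GH.pr_congr hT hZ fun l h1 h2 h3 =>
      k l ⟨fo_sub.2 ⟨h1, h2⟩, h3⟩)) rfl
  · by_cases k : i.bs = none
    · rcases v with _ | w
      · exact absurd k ((none_fo i).1 hv)
      simp only [pn, if_pos k]
      exact P057MA.aff_add (P057EN.aff_pr hZ k ((some_fo i w).1 hv) fun l hl =>
        (some_fo l w).1 ((MS.mem_st _).1 hl)) (P057MA.aff_const _ _)
    · simp only [pn, if_neg k]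
      exact P057MA.aff_const _ _

theorem alt_pn (hT : T.Ok s N) (hZ : Z.Ok) (x : Lb T cl Unit m → ℝ) {l : Lb T cl Unit m}
    (hl : l.bs = none) :
    (sk T cl m).alt (fo l) (fun y => pn Z c y l) x = (z0 T W).pr cl m x l := by
  simp only [pn, if_pos hl]
  rw [alt_add, alt_pr hT hZ x hl, P057CO.alt_const (fo_ne hT l), add_zero]

section emb

variable {V : Type} [Fintype V] [DecidableEq V] {j : V → W}

/-- labels of a symbol cube as labels without base -/
def es (j : V → W) (hj : j.Injective) (k : SA T V m) : Lb T (id : W → W) Unit m :=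
  ⟨(k.cd, k.fc.image j, none), k.2.1, Set.injOn_id _,
    (card_image_of_injective _ hj).trans k.2.2.1⟩

theorem es_inj (hj : j.Injective) : (es j hj : SA T V m → _).Injective := fun k k' h =>
  Subtype.ext (Prod.ext (congrArg Lb.cd h) (image_injective hj (congrArg Lb.fc h)))

theorem mem_es (hj : j.Injective) {l : Lb T (id : W → W) Unit m} (h1 : l.bs = none)
    (h2 : l.fc ⊆ univ.image j) : l ∈ Set.range (es j hj) := by
  obtain ⟨A, -, hA⟩ := subset_image_iff.1 h2
  exact ⟨⟨(l.cd, A), l.2.1, by rw [← l.card_eq h1, ← hA, card_image_of_injective _ hj], trivial⟩,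
    Lb.ext' rfl hA h1.symm⟩

theorem fo_es (hj : j.Injective) (k : SA T V m) : fo (es j hj k) = k.fc.image (some ∘ j) :=
  (if_pos rfl).trans image_image

theorem val_es (hj : j.Injective) (k : SA T V m) :
    (fo (es j hj k)).val = k.fc.val.map (some ∘ j) := by
  rw [fo_es, image_val_of_injOn ((Option.some_injective _).comp hj).injOn]

theorem G_es (hj : j.Injective) (a : ℝ) (k k' : SA T V m) :
    sG T id Unit m (fun _ _ => a) (es j hj k) (es j hj k') =
      (P057TE.sym T (fun _ => True) m a).G k k' := by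
  change a * Gam T id Unit m _ _ = a * (fr SL.cd SL.fc 0).Gam T.tw k k'
  rw [P057TE.Gam_fr]
  exact congrArg (a * ·) (@if_congr _ _ _ (_) (_) _ _ _ _
    ((and_iff_left rfl).trans (image_injective hj).eq_iff) rfl rfl)

theorem p_es (hT : T.Ok s N) (hj : j.Injective) (x : Lb T (id : W → W) Unit m → ℝ)
    (k : SA T V m) : (z0 T W).pr id m x (es j hj k) = (S0 T V m).p (x ∘ es j hj) k := by
  classical
  rw [P057GH.pr_congr hT (ok_z0 hT) (x' := fun l => if l ∈ Set.range (es j hj) then x l else 0)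
    fun l h1 h2 _ => (if_pos (mem_es hj (h2.elim id id)
      (h1.trans (image_subset_image (subset_univ _))))).symm,
    pr_co (ok_z0 hT) _ rfl, val_es, P057PU.p_eq,
    ← P057PU.cq_tr ((Option.some_injective _).comp hj)]
  refine congrArg (fun y => MvPolynomial.coeff _ (MvPolynomial.eval y _)) (funext fun b => ?_)
  rw [P057PU.tr_pt]
  refine (Fintype.sum_of_injective _ (es_inj hj) _ _ (fun l hl => ?_) fun k => ?_).symm
  · simp [hl]
  · refine if_ctx_congr (and_iff_left (Or.inl rfl)).symm (fun h => ?_) fun _ => rfl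
    beta_reduce
    rw [if_pos (Set.mem_range_self k), ← h.1, P057PU.mon_eq, P057PU.ex_eq (Or.inl rfl), val_es,
      MvPolynomial.C_mul_monomial, mul_one]
    rfl

end emb

end

end Vale.Agent.P057SY
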