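import Vale.Agent.P057SY.Cb
import Vale.Agent.P057RL.Clo

/-!
The two readings of a form on the doubled cube.
-/

set_option linter.all false

open Matrix Finset
open Vale.Agent.P267.H775 Vale.Agent.P057G Vale.Agent.P057PC Vale.Agent.P057TP
open Vale.Agent.P057MA (On fce mem_fce)
open Vale.Agent.P057DP Vale.Agent.P057PL
open Vale.Agent.P057RL (cG)

namespace Vale.Agent.P057SY

noncomputable section

section gen

variable {V ι E : Type} [DecidableEq V] [Fintype ι] [DecidableEq ι] [Fintype E] [DecidableEq E]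
  {S : MS V ι} {X : Xt V ι E}

/-- the symbols of the centres -/
abbrev Xt.lin (S : MS V ι) (X : Xt V ι E) : Xt V ι E :=
  ⟨X.fc, X.tr, X.G, fun x e => (xt S X).alt (X.fc e) (fun y => X.g y e) x⟩

theorem ok_lin (h : X.Ok S) : (Xt.lin S X).Ok S :=
  ⟨h.ne, h.pd, h.ort, fun e x x' h1 h2 => sum_congr rfl fun U _ => congrArg (_ * ·) (h.loc e _ _
    (fun i hi => if_congr Iff.rfl rfl (h1 i hi)) fun e' a b => if_congr Iff.rfl rfl (h2 e' a b)),
    fun v e => MS.aff_alt (h.aff v e) _⟩

theorem Xt.Ok.on (h : X.Ok S) (e : E) {x x' : ι ⊕ E → ℝ}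
    (k : ∀ i, (xt S X).fc i ⊆ X.fc e → x i = x' i) : X.g x e = X.g x' e :=
  h.loc e _ _ (fun i => k (Sum.inl i)) fun e' a _ => k (Sum.inr e') a

end gen

variable {C W E : Type} [Fintype W] [DecidableEq W] [Fintype E] [DecidableEq E] {T : Tow}
  {cl : W → C} {m s : ℕ} {N ω : ℝ} {X : Xt (Option W) (Lb T cl Unit m) E} {w : W} {c : Bool}

/-- labels of the doubled cube -/
abbrev L2 (T : Tow) (W : Type) (m : ℕ) : Type := Lb T (id : W × Bool → W × Bool) Unit m

theorem rv_inj (w : W) (c : Bool) : (rv w c).Injective := by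
  rintro (_ | u) (_ | v) h <;> simp only [rv, Option.elim, Prod.mk.injEq] at h
  · rfl
  · rw [if_pos h.1.symm] at h; simp at h
  · rw [if_pos h.1] at h; simp at h
  · rw [h.1]

/-- the vertices of a reading -/
def rs (w : W) (c : Bool) : Option W → Option (W × Bool) := some ∘ rv w c

theorem rs_inj (w : W) (c : Bool) : (rs w c).Injective := (Option.some_injective _).comp (rv_inj w c)

/-- a reading of the labels and of one copy of the extra coordinates -/
def rd (cl : W → C) (w : W) (c : Bool) (x : L2 T W m ⊕ Bool × E → ℝ) : Lb T cl Unit m ⊕ E → ℝ :=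
  Sum.elim (pl cl w c (x ∘ Sum.inl)) fun e => x (Sum.inr (c, e))

/-- the change of sign at the vertex `w` -/
def ss (X : Xt (Option W) (Lb T cl Unit m) E) (w : W) (x : Lb T cl Unit m ⊕ E → ℝ)
    (i : Lb T cl Unit m ⊕ E) : ℝ := sn w ((xt (sk T cl m) X).fc i) * x i

/-- two wide copies of the extra coordinates over the doubled cube -/
abbrev X2 (X : Xt (Option W) (Lb T cl Unit m) E) (w : W) (ω : ℝ) :
    Xt (Option (W × Bool)) (L2 T W m) (Bool × E) :=
  ⟨fun e => (X.fc e.2).image (rs w e.1), fun e => X.tr e.2, ω • cG Bool X.G,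
    fun x e => sn w (X.fc e.2) * X.g (ss X w (rd cl w e.1 x)) e.2⟩

theorem fo_rd {k : L2 T W m} {A : Finset (Option W)} (h1 : k.bs = none)
    (h2 : k.fc = A.image (rv w c)) : fo k = A.image (rs w c) := by
  rw [fo, if_pos h1, h2, image_image]; rfl

theorem rd_congr {x x' : L2 T W m ⊕ Bool × E → ℝ} {j : Lb T cl Unit m ⊕ E}
    (h : ∀ i, (xt (sk T id m) (X2 X w ω)).fc i = ((xt (sk T cl m) X).fc j).image (rs w c) →
      Sum.elim (fun _ => True) (fun e => j = Sum.inr e.2) i → x i = x' i) :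
    rd cl w c x j = rd cl w c x' j := by
  rcases j with l | e
  · exact sum_congr rfl fun k _ => if_ctx_congr Iff.rfl
      (fun a => h (Sum.inl k) (fo_rd a.1 a.2.2) trivial) fun _ => rfl
  · exact h (Sum.inr (c, e)) rfl rfl

theorem lin_rd (w : W) (c : Bool) : IsLinearMap ℝ (rd (T := T) (m := m) (E := E) cl w c) := by
  refine ⟨fun x y => funext ?_, fun c x => funext ?_⟩ <;> rintro (l | e)
  · simp only [rd, pl, Pi.add_apply, Sum.elim_inl, ← sum_add_distrib, Function.comp]
    exact sum_congr rfl fun k _ => by split_ifs <;> simp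
  · rfl
  · simp only [rd, pl, Pi.smul_apply, Sum.elim_inl, smul_eq_mul, mul_sum, Function.comp]
    exact sum_congr rfl fun k _ => by split_ifs <;> simp
  · rfl

theorem rd_mix (v : Option W) (x y : L2 T W m ⊕ Bool × E → ℝ) :
    rd cl w c (mix ((xt (sk T id m) (X2 X w ω)).st (rs w c v)) x y) =
      mix ((xt (sk T cl m) X).st v) (rd cl w c x) (rd cl w c y) := funext fun j => by
  have e : ∀ A : Finset (Option W), rs w c v ∈ A.image (rs w c) ↔ v ∈ A :=
    fun A => (rs_inj w c).mem_finset_image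
  by_cases k : v ∈ (xt (sk T cl m) X).fc j
  · rw [mix_pos _ _ ((MS.mem_st _).2 k)]
    exact rd_congr (ω := ω) fun i hi _ => mix_pos _ _ ((MS.mem_st _).2 (hi ▸ (e _).2 k))
  · rw [mix_neg _ _ (mt (MS.mem_st _).1 k)]
    exact rd_congr (ω := ω) fun i hi _ => mix_neg _ _ fun a => k ((e _).1 (hi ▸ (MS.mem_st _).1 a))

theorem lin_ss (w : W) : IsLinearMap ℝ (ss X w) :=
  ⟨fun x y => funext fun i => mul_add _ _ _, fun c x => funext fun i => mul_left_comm _ _ _⟩

theorem ss_mix (r : Finset (Lb T cl Unit m ⊕ E)) (x y : Lb T cl Unit m ⊕ E → ℝ) :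
    ss X w (mix r x y) = mix r (ss X w x) (ss X w y) := funext fun i => by
  simp only [ss, mix]; split_ifs <;> rfl

theorem ss_eq (x : Lb T cl Unit m ⊕ E → ℝ) :
    ss X w x = mix ((xt (sk T cl m) X).st (some w)) (-x) x := funext fun i => by
  simp only [ss, mix, sn, MS.mem_st]; split_ifs <;> simp

theorem sn_sq (w : W) (A : Finset (Option W)) : (sn w A : ℝ) * sn w A = 1 := by
  unfold sn; split_ifs <;> simp

theorem aff_rd {f : (Lb T cl Unit m ⊕ E → ℝ) → ℝ} (hf : ∀ v, Aff ((xt (sk T cl m) X).st v) f)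
    (u : Option (W × Bool)) :
    Aff ((xt (sk T id m) (X2 X w ω)).st u) fun x => f (ss X w (rd cl w c x)) := by
  by_cases h : ∃ v, rs w c v = u
  · obtain ⟨v, rfl⟩ := h
    exact aff_map (lin_rd w c) (rd_mix v) (aff_map (lin_ss w) (ss_mix _) (hf v))
  · refine P057MA.aff_of_indep fun x y => congrArg (fun z => f (ss X w z)) (funext fun j =>
      rd_congr (ω := ω) (X := X) fun i hi _ => mix_neg _ _ fun a => h ?_)
    obtain ⟨v, -, hv⟩ := mem_image.1 (hi ▸ (MS.mem_st _).1 a)
    exact ⟨v, hv⟩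

theorem ok_X2 (h : X.Ok (sk T cl m)) (hω : 0 < ω) : (X2 X w ω).Ok (sk T id m) := by
  refine ⟨fun e => (h.ne e.2).image _, (P057RL.pd_cG h.pd).smul hω, fun e e' k => ?_,
    fun e x x' h1 h2 => congrArg (_ * ·) (h.loc _ _ _ (fun l hl => congrArg (_ * ·) ?_)
      fun e' a b => congrArg (_ * ·) (h2 (e.1, e') (image_subset_image a) b)),
    fun v e => P057MA.aff_smul (aff_rd (fun v => h.aff v e.2) v) _⟩
  · obtain ⟨a, b⟩ := ite_ne_right_iff.1 (right_ne_zero_of_mul k)
    exact ⟨by simp only [a, (h.ort _ _ b).1], (h.ort _ _ b).2⟩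
  · refine rd_congr (ω := ω) (X := X) ?_
    rintro (k | e') hi a
    exacts [h1 k (hi.subset.trans (image_subset_image hl)), absurd a Sum.inl_ne_inr]

theorem alt_rd (A : Finset (Option W)) (f : (Lb T cl Unit m ⊕ E → ℝ) → ℝ)
    (x : L2 T W m ⊕ Bool × E → ℝ) :
    (xt (sk T id m) (X2 X w ω)).alt (A.image (rs w c)) (fun x => f (ss X w (rd cl w c x))) x =
      (xt (sk T cl m) X).alt A f (ss X w (rd cl w c x)) :=
  alt_map (rs_inj w c).injOn (P := fun x => ss X w (rd cl w c x))
    (fun v _ y => by rw [rd_mix, ss_mix, (lin_rd w c).map_zero, (lin_ss w).map_zero]) f x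

theorem alt_ss {A : Finset (Option W)} {f : (Lb T cl Unit m ⊕ E → ℝ) → ℝ}
    (hf : Aff ((xt (sk T cl m) X).st (some w)) f)
    (ho : some w ∉ A → ∀ x x', (∀ i, (xt (sk T cl m) X).fc i ⊆ A → x i = x' i) → f x = f x')
    (x : Lb T cl Unit m ⊕ E → ℝ) :
    (xt (sk T cl m) X).alt A f (ss X w x) = sn w A * (xt (sk T cl m) X).alt A f x := by
  rw [ss_eq, sn]
  split_ifs with h
  · have := (MS.lin_alt h hf x).map_neg x
    rw [mix_self] at this
    rw [this]; simp
  · rw [P057PU.alt_congr (ho h) A (z' := x) fun i hi => mix_neg _ _ fun a =>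
      h (hi ((MS.mem_st _).1 a))]
    simp

variable {F : Finset W}

/-- the vertices of the face in the doubled cube -/
def jv (w : W) (c : Bool) (F : Finset W) (v : VF F) : W × Bool := rv w c v.1

theorem jv_inj (w : W) (c : Bool) (F : Finset W) : (jv w c F).Injective :=
  (rv_inj w c).comp Subtype.val_injective

theorem jv_image (A : Finset (VF F)) : A.image (jv w c F) = (up A).image (rv w c) := by
  rw [up, map_eq_image, image_image]; rfl

theorem up_univ : up (univ : Finset (VF F)) = fp F := Finset.ext fun v =>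
  ⟨fun h => up_sub _ h, fun h => (mem_up (v := ⟨v, h⟩)).2 (mem_univ _)⟩

theorem jv_sw {t : VF F} (ht : t.1 = some w) (c : Bool) (v : VF F) :
    jv w false F (sw (tF F) t c v) = jv w c F v := by
  cases c
  · rfl
  change rv w false (Equiv.swap (tF F) t v).1 = rv w true v.1
  by_cases a : v = tF F
  · rw [a, Equiv.swap_apply_left, ht]; simp [rv, tF]
  by_cases b : v = t
  · rw [b, Equiv.swap_apply_right, ht]; simp [rv, tF]
  rw [Equiv.swap_apply_of_ne_of_ne a b]
  obtain ⟨_ | u, hu⟩ := v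
  · exact absurd rfl a
  · have : u ≠ w := fun e => b (Subtype.ext (by rw [ht, ← e]))
    simp [rv, this]

theorem es_pa {t : VF F} (ht : t.1 = some w) (c : Bool) (k : SA T (VF F) m) :
    es _ (jv_inj w false F) (pa (sw (tF F) t c) k) = es _ (jv_inj w c F) k := by
  refine Lb.ext' rfl ?_ rfl
  change (k.fc.map _).image _ = k.fc.image _
  rw [map_eq_image, image_image]
  exact image_congr fun v _ => jv_sw ht c v

theorem image_rs {t : VF F} (ht : t.1 = some w) (c : Bool) :
    (fp F).image (rs w false) = (fp F).image (rs w c) := by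
  have e : ∀ c, (fp F).image (rs w c) = (univ.image (jv w c F)).image some := fun c => by
    rw [jv_image, up_univ, image_image]; rfl
  rw [e, e, ← funext (jv_sw ht c), ← image_univ_equiv (sw (tF F) t c), image_image, image_image,
    image_image, image_univ_equiv]
  rfl

/-- the symbol cube with two copies of the extra coordinates inside the doubled cube -/
def eh (fc : E → Finset (Option W)) (w : W) (F : Finset W) :
    SA T (VF F) m ⊕ Bool × EF fc F → L2 T W m ⊕ Bool × E :=
  Sum.map (es _ (jv_inj w false F)) (Prod.map id Subtype.val)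

theorem eh_inj : (eh (T := T) (m := m) X.fc w F).Injective :=
  (es_inj _).sumMap (Function.injective_id.prodMap Subtype.val_injective)

theorem sub_iff (h0 : ∀ e, none ∉ X.fc e) (e : E) : X.fc e ⊆ fp F ↔ X.fc e ⊆ F.image some :=
  ⟨fun h v hv => (mem_insert.1 (h hv)).resolve_left fun a => h0 e (a ▸ hv),
    fun h => h.trans (sub_fp F)⟩

theorem image_eh (h0 : ∀ e, none ∉ X.fc e) {t : VF F} (ht : t.1 = some w) :
    univ.image (eh X.fc w F) = fce (xt (sk T id m) (X2 X w ω)) ((fp F).image (rs w false)) := by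
  ext i
  rw [mem_fce, mem_image]
  refine ⟨?_, fun h => ?_⟩
  · rintro ⟨k | ⟨c, e⟩, -, rfl⟩
    · exact (fo_rd (k := es _ (jv_inj w false F) k) rfl (jv_image _)).subset.trans (image_subset_image (up_sub _))
    · rw [image_rs ht c]
      exact image_subset_image (e.2.trans (sub_fp F))
  · rcases i with k | ⟨c, e⟩
    · have h1 : k.bs = none := by_contra fun a => by
        obtain ⟨v, -, hv⟩ := mem_image.1 (h ((none_fo k).2 a))
        exact Option.some_ne_none _ hv
      obtain ⟨l, rfl⟩ := mem_es (jv_inj w false F) h1 fun u hu => by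
        obtain ⟨v, a, hv⟩ := mem_image.1 (h ((some_fo k u).2 hu))
        exact mem_image.2 ⟨⟨v, a⟩, mem_univ _, Option.some.inj hv⟩
      exact ⟨Sum.inl l, mem_univ _, rfl⟩
    · rw [image_rs ht c] at h
      exact ⟨Sum.inr (c, ⟨e, (sub_iff h0 e).1 ((image_subset_image_iff (rs_inj w c)).1 h)⟩),
        mem_univ _, rfl⟩

theorem rd_eh (h0 : ∀ e, none ∉ X.fc e) {t : VF F} (ht : t.1 = some w) (c : Bool)
    (x : L2 T W m ⊕ Bool × E → ℝ) {i : Lb T cl Unit m ⊕ E} (hi : (xt (sk T cl m) X).fc i ⊆ fp F) :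
    rd cl w c x i = pe cl X.fc F (cpr (sw (tF F) t) c (x ∘ eh X.fc w F)) i := by
  rcases i with l | e
  · refine (Fintype.sum_of_injective _ (es_inj (jv_inj w c F)) _ _ (fun k hk => if_neg fun a =>
      hk (mem_es _ a.1 ?_)) fun k => ?_).symm
    · rw [a.2.2, jv_image, up_univ]
      exact image_subset_image hi
    · refine @if_congr _ _ _ (_) (_) _ _ _ _ ?_ (congrArg (fun z => x (Sum.inl z)) (es_pa ht c k)) rfl
      refine (and_congr_right fun _ => ?_).trans (and_iff_right rfl).symm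
      exact (image_injective (rv_inj w c)).eq_iff.symm.trans (by rw [← jv_image]; rfl)
  · simp only [pe, Sum.elim_inr, dif_pos ((sub_iff h0 e).1 hi)]
    rfl

theorem pe_out (x : SA T (VF F) m ⊕ EF X.fc F → ℝ) {i : Lb T cl Unit m ⊕ E}
    (hi : ¬ (xt (sk T cl m) X).fc i ⊆ fp F) : pe cl X.fc F x i = 0 := by
  rcases i with l | e
  · exact P057PU.pu_out _ hi
  · exact dif_neg fun a => hi (a.trans (sub_fp F))

theorem kz_rd (h0 : ∀ e, none ∉ X.fc e) {t : VF F} (ht : t.1 = some w) (c : Bool)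
    (x : L2 T W m ⊕ Bool × E → ℝ) : (xt (sk T cl m) X).kz (univ \ fp F) (rd cl w c x) =
      pe cl X.fc F (cpr (sw (tF F) t) c (x ∘ eh X.fc w F)) := funext fun i => by
  by_cases hi : (xt (sk T cl m) X).fc i ⊆ fp F
  · rw [← rd_eh h0 ht c x hi]
    refine mix_neg _ _ fun a => ?_
    obtain ⟨v, h1, h2⟩ := MS.mem_sts.1 a
    exact (mem_sdiff.1 h1).2 (hi h2)
  · rw [pe_out _ hi]
    obtain ⟨v, h1, h2⟩ := not_subset.1 hi
    exact mix_pos _ _ (MS.mem_sts.2 ⟨v, mem_sdiff.2 ⟨mem_univ _, h2⟩, h1⟩)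

/-- the symbol of a reading of a form -/
theorem alt_form (h0 : ∀ e, none ∉ X.fc e) {t : VF F} (ht : t.1 = some w) {b : ℕ}
    {φ : (Lb T cl Unit m ⊕ E → ℝ) → ℝ} (hφ : Dg X b φ) (hb : b ≤ F.card + 1) (c : Bool)
    (x : L2 T W m ⊕ Bool × E → ℝ) :
    (xt (sk T id m) (X2 X w ω)).alt ((fp F).image (rs w false))
      (fun x => φ (ss X w (rd cl w c x))) x = -sf X F φ (cpr (sw (tF F) t) c (x ∘ eh X.fc w F)) := by
  have hw : some w ∈ fp F := ht ▸ t.2
  rw [image_rs ht c, alt_rd, alt_ss (hφ.aff _) fun a => absurd hw a, sn, if_pos hw,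
    ← hφ.alt_kz hb, cmp, kz_rd h0 ht, sf]
  simp

/-- the symbols of the centres of the copies -/
theorem alt_cen (h : X.Ok (sk T cl m)) (h0 : ∀ e, none ∉ X.fc e) {t : VF F} (ht : t.1 = some w)
    (c : Bool) (e : EF X.fc F) (x : L2 T W m ⊕ Bool × E → ℝ) :
    (xt (sk T id m) (X2 X w ω)).alt ((X.fc e).image (rs w c)) (fun x => (X2 X w ω).g x (c, e)) x =
      (X.sy F).g (cpr (sw (tF F) t) c (x ∘ eh X.fc w F)) e := by
  rw [alt_mul, alt_rd _ fun y => X.g y e, alt_ss (h.aff _ _) fun _ _ _ => h.on e, ← mul_assoc, sn_sq,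
    one_mul]
  exact P057PU.alt_congr (fun _ _ => h.on e) _ fun i hi =>
    rd_eh h0 ht c x (hi.trans (e.2.trans (sub_fp F)))

end

end Vale.Agent.P057SY
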