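import Vale.Agent.P057SY.Rd
import Vale.Agent.P057RG.Up

/-!
The symmetry argument, second half.
-/

set_option linter.all false

open Matrix Finset Real
open Vale.Agent.P267.H775 Vale.Agent.P057G Vale.Agent.P057PC Vale.Agent.P057TP
open Vale.Agent.P057MA (On fce mem_fce blow)
open Vale.Agent.P057DP Vale.Agent.P057PL
open Vale.Agent.P057RL (cG)

namespace Vale.Agent.P057SY

noncomputable section

section fc

variable {V ι E : Type} [DecidableEq V] [Fintype ι] [DecidableEq ι] [Fintype E] [DecidableEq E]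
  {S S' : MS V ι}

theorem st_fc (e : S.fc = S'.fc) (v : V) : S.st v = S'.st v := by simp only [MS.st, e]

theorem alt_fc (e : S.fc = S'.fc) (I : Finset V) (f : (ι → ℝ) → ℝ) (z : ι → ℝ) :
    S.alt I f z = S'.alt I f z := by simp only [MS.alt, MS.kz, MS.sts, e]

theorem fce_fc (e : S.fc = S'.fc) (I : Finset V) : fce S I = fce S' I := by simp only [fce, e]

theorem Xt.Ok.of_fc {X : Xt V ι E} (h : X.Ok S) (e : S'.fc = S.fc) : X.Ok S' :=
  ⟨h.ne, h.pd, h.ort, e ▸ h.loc, fun v a => by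
    rw [st_fc (S' := xt S X) (congrArg (Sum.elim · X.fc) e)]; exact h.aff v a⟩

end fc

variable {C W E : Type} [Fintype W] [DecidableEq W] [Fintype E] [DecidableEq E] {T : Tow}
  {cl : W → C} {m s : ℕ} {N ω : ℝ} {X : Xt (Option W) (Lb T cl Unit m) E} {w : W}
  {A : Bool → (L2 T W m → ℤ) → ℂ} {n : Bool → (L2 T W m → ℤ) → E → ℤ}

/-- the signed reading of the labels with given values of the extra coordinates -/
def sr (cl : W → C) (w : W) (c : Bool) (z : L2 T W m → ℤ) (u : E → ℤ) : Lb T cl Unit m ⊕ E → ℝ :=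
  Sum.elim (fun l => sn w (fo l) * pl cl w c (toR z) l) (toR u)

/-- the position of a copy of the extra coordinates -/
def vp (X : Xt (Option W) (Lb T cl Unit m) E) (w : W) (c : Bool) (x : L2 T W m ⊕ Bool × E → ℤ)
    (e : E) : ℝ := x (Sum.inr (c, e)) - (X2 X w 1).g (toR x) (c, e)

open Classical in
/-- the values of the extra coordinates inserted with a bounded weight -/
def ins (X : Xt (Option W) (Lb T cl Unit m) E) (w : W) (ω : ℝ) (A : Bool → (L2 T W m → ℤ) → ℂ)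
    (n : Bool → (L2 T W m → ℤ) → E → ℤ) (c : Bool) (x : L2 T W m ⊕ Bool × E → ℤ) : ℂ :=
  if ∀ e, x (Sum.inr (c, e)) = sn w (X.fc e) * n c (x ∘ Sum.inl) e then
    A c (x ∘ Sum.inl) * ((exp (-4) / gs (ω • X.G) (vp X w c x) : ℝ) : ℂ) else 0

theorem ss_rd {c : Bool} {x : L2 T W m ⊕ Bool × E → ℤ} {u : E → ℤ}
    (h : ∀ e, x (Sum.inr (c, e)) = sn w (X.fc e) * u e) :
    ss X w (rd cl w c (toR x)) = sr cl w c (x ∘ Sum.inl) u := by
  funext i
  rcases i with l | e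
  · rfl
  · change (sn w (X.fc e) : ℝ) * (x (Sum.inr (c, e)) : ℝ) = u e
    rw [h, Int.cast_mul, ← mul_assoc, sn_sq, one_mul]

theorem qq_sn (h : X.Ok (sk T cl m)) (v : E → ℝ) :
    qq X.G (fun e => sn w (X.fc e) * v e) = qq X.G v := by
  simp only [qq, dotProduct, mulVec, mul_sum]
  refine sum_congr rfl fun e _ => sum_congr rfl fun e' _ => ?_
  by_cases k : X.G e e' = 0
  · simp [k]
  · rw [← (h.ort _ _ k).1]
    linear_combination (v e * X.G e e' * v e') * sn_sq w (X.fc e)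

theorem norm_ins (h : X.Ok (sk T cl m)) (hω : 0 < ω) {B : ℝ} (hB : ω * B ≤ 1)
    (hA : ∀ c z, ‖A c z‖ ≤ 1)
    (hn : ∀ c z, A c z ≠ 0 → qq X.G (toR (n c z) - X.g (sr cl w c z (n c z))) ≤ B) (c : Bool)
    (x : L2 T W m ⊕ Bool × E → ℤ) : ‖ins X w ω A n c x‖ ≤ 1 := by
  unfold ins
  split_ifs with k
  swap
  · simp
  by_cases a : A c (x ∘ Sum.inl) = 0
  · simp [a]
  have e : vp X w c x = fun e => sn w (X.fc e) *
      (toR (n c (x ∘ Sum.inl)) - X.g (sr cl w c (x ∘ Sum.inl) (n c (x ∘ Sum.inl)))) e := by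
    funext e
    simp only [vp, ss_rd k, k, Pi.sub_apply, toR_apply, Int.cast_mul, mul_sub]
  rw [norm_mul, Complex.norm_real, Real.norm_of_nonneg (div_pos (exp_pos _) (gs_pos _ _)).le]
  refine mul_le_one₀ (hA _ _) (div_pos (exp_pos _) (gs_pos _ _)).le
    ((div_le_one (gs_pos _ _)).2 (exp_le_exp.2 ?_))
  rw [qq_smul_mat, e, qq_sn h]
  have := (mul_le_mul_of_nonneg_left (hn c _ a) hω.le).trans hB
  nlinarith [pi_le_four, pi_pos]

theorem ins_congr (h : X.Ok (sk T cl m)) (h0 : ∀ e, none ∉ X.fc e)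
    (hA : ∀ c z z', (∀ l : L2 T W m, (w, !c) ∉ l.fc → z l = z' l) → A c z = A c z' ∧ n c z = n c z')
    (c : Bool) (x x' : L2 T W m ⊕ Bool × E → ℤ)
    (k : ∀ i, some (w, !c) ∉ (xt (sk T id m) (X2 X w ω)).fc i → x i = x' i) :
    ins X w ω A n c x = ins X w ω A n c x' := by
  have h1 := hA c (x ∘ Sum.inl) (x' ∘ Sum.inl) fun l hl => k (Sum.inl l) (mt (some_fo l _).1 hl)
  have h2 : ∀ e, some (w, !c) ∉ (X.fc e).image (rs w c) := fun e a =>
    h0 e ((rs_inj w c).mem_finset_image.1 a)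
  have h3 : ∀ e, x (Sum.inr (c, e)) = x' (Sum.inr (c, e)) := fun e => k _ (h2 e)
  have h4 : vp X w c x = vp X w c x' := funext fun e => by
    rw [vp, vp, h3, (ok_X2 h one_pos).on (c, e) (x := toR x) (x' := toR x') fun i hi =>
      congrArg Int.cast (k i fun a => h2 e (hi a))]
  simp only [ins, h1.1, h1.2, h3, h4]

theorem ev_ins {Z : Sys T (W × Bool) Unit} {x₀ : L2 T W m → ℝ} (hT : T.Ok s N) (hZ : Z.Ok)
    (h : X.Ok (sk T cl m)) (hω : 0 < ω) (hi : ∀ c x, ‖ins X w ω A n c x‖ ≤ 1)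
    (φ : (Lb T cl Unit m ⊕ E → ℝ) → ℝ) :
    Ev (xt (cb Z id m 25 x₀) (X2 X w ω)) univ (fun x => ins X w ω A n false x *
      (ins X w ω A n true x * ee (φ (ss X w (rd cl w true (toR x))) -
        φ (ss X w (rd cl w false (toR x)))))) =
      (exp (-8) / vol (X2 X w ω).G : ℝ) * Ev (cb Z id m 25 x₀) univ fun z => A false z *
        (A true z * ee (φ (sr cl w true z (n true z)) - φ (sr cl w false z (n false z)))) := by
  have ev : ∀ {V ι : Type} [DecidableEq V] [Fintype ι] [DecidableEq ι] (S : MS V ι) f,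
      Ev S univ f = P057CO.EX S f := fun S f => by
    rw [P057CO.EX_eq, ← tsum_div_const]
    exact tsum_congr fun z => by rw [nw]; push_cast; ring
  have h1 := lo_cb (cl := id) (m := m) (c := x₀) hT hZ (by norm_num : (0 : ℝ) < 25)
  have h2 := ok_X2 (w := w) h hω
  have h3 := lo_xt h1 (h2.of_fc rfl)
  rw [ev, ev, P057CO.EX, P057CO.EX, ← Ex_mul_const]
  refine (P057CO.Ex_blocks h1.pd h2.pd (lv := (xt (cb Z id m 25 x₀) (X2 X w ω)).lv)
    (fun i z z' k => h3.tri i _ _ fun j hj => congrArg Int.cast (k j hj))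
    (p2 := fun z u => (X2 X w ω).g (toR (Sum.elim z u))) (fun z u => by rw [P057CO.toR_elim]; rfl)
    (C := 1) fun x => ?_).trans (congrArg _ (funext fun z => ?_))
  · rw [norm_mul, norm_mul, norm_ee, mul_one]
    exact mul_le_one₀ (hi _ _) (norm_nonneg _) (hi _ _)
  let u : Bool × E → ℤ := fun e => sn w (X.fc e.2) * n e.1 z e.2
  have k : ∀ c e, Sum.elim z u (Sum.inr (c, e)) = sn w (X.fc e) * n c (Sum.elim z u ∘ Sum.inl) e :=
    fun _ _ => rfl
  rw [Ex, tsum_eq_single u fun u' hu => ?_]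
  · have g : gs (X2 X w ω).G (toR u - (X2 X w ω).g (toR (Sum.elim z u))) =
        gs (ω • X.G) (vp X w false (Sum.elim z u)) * gs (ω • X.G) (vp X w true (Sum.elim z u)) := by
      change gs (ω • cG Bool X.G) _ = _
      rw [gs, gs, gs, ← exp_add, P057RL.smul_cG, P057RL.qq_cG, Fintype.sum_bool]
      congr 1
      change -(π * (qq _ (vp X w true (Sum.elim z u)) + qq _ (vp X w false (Sum.elim z u)))) = _
      ring
    have g1 := Complex.ofReal_ne_zero.2 (gs_pos (ω • X.G) (vp X w false (Sum.elim z u))).ne'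
    have g2 := Complex.ofReal_ne_zero.2 (gs_pos (ω • X.G) (vp X w true (Sum.elim z u))).ne'
    rw [ng, g, ins, ins, if_pos (k _), if_pos (k _), ss_rd (k _), ss_rd (k _),
      show exp (-8) = exp (-4) * exp (-4) by rw [← exp_add]; norm_num]
    simp only [Sum.elim_comp_inl, Complex.ofReal_mul, Complex.ofReal_div]
    field_simp
  · obtain ⟨⟨c, e⟩, he⟩ := Function.ne_iff.1 hu
    have : ins X w ω A n c (Sum.elim z u') = 0 := if_neg fun a => he (a e)
    cases c <;> simp [this]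

variable {F : Finset W} {Z : Sys T (W × Bool) Unit} {x₀ : L2 T W m → ℝ}

/-- the doubled cube with the copies of the extra coordinates -/
abbrev S4 (Z : Sys T (W × Bool) Unit) (x₀ : L2 T W m → ℝ) (X : Xt (Option W) (Lb T cl Unit m) E)
    (w : W) (ω : ℝ) : MS (Option (W × Bool)) (L2 T W m ⊕ Bool × E) :=
  xt (cb Z id m 25 x₀) (X2 X w ω)

/-- its multi-affine part -/
def p5 (Z : Sys T (W × Bool) Unit) (x₀ : L2 T W m → ℝ) (X : Xt (Option W) (Lb T cl Unit m) E)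
    (w : W) (x : L2 T W m ⊕ Bool × E → ℝ) : L2 T W m ⊕ Bool × E → ℝ :=
  Sum.elim (pn Z x₀ (x ∘ Sum.inl)) ((X2 X w 1).g x)

theorem fc4 : (S4 Z x₀ X w ω).fc = (xt (sk T id m) (X2 X w ω)).fc := rfl

theorem ok_cb (h : X.Ok (sk T cl m)) (hω : 0 < ω) : (X2 X w ω).Ok (cb Z id m 25 x₀) :=
  (ok_X2 h hω).of_fc rfl

theorem ok_p5 (hT : T.Ok s N) (hZ : Z.Ok) (h : X.Ok (sk T cl m)) (hω : 0 < ω) :
    (wp (S4 Z x₀ X w ω) (p5 Z x₀ X w)).Ok :=
  P057CO.ok_xt (ok_pn hT hZ (by norm_num : (0 : ℝ) < 25)) (X := X2 X w ω)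
    ((ok_X2 h hω).of_fc rfl)

theorem alt_p5 (hT : T.Ok s N) (hZ : Z.Ok) (z : L2 T W m ⊕ Bool × E → ℝ) {l : L2 T W m}
    (hl : l.bs = none) : (S4 Z x₀ X w ω).alt (fo l) (fun y => p5 Z x₀ X w y (Sum.inl l)) z =
      (z0 T _).pr id m (z ∘ Sum.inl) l :=
  (P057CO.fmp_inl.alt _ (fun y => pn Z x₀ y l) z).trans
    ((alt_fc (S' := sk T id m) rfl _ _ _).trans (alt_pn hT hZ _ hl))

theorem G_eh (t : VF F) (i j : SA T (VF F) m ⊕ Bool × EF X.fc F) :
    (S4 Z x₀ X w ω).G (eh X.fc w F i) (eh X.fc w F j) =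
      (xt (S0 T (VF F) m) (((X.sy F).clo (sw (tF F) t)).sm ω)).G i j := by
  rcases i with i | i <;> rcases j with j | j
  exacts [G_es _ _ i j, rfl, rfl, rfl]

theorem p_eh (hT : T.Ok s N) (hZ : Z.Ok) (h : X.Ok (sk T cl m)) (h0 : ∀ e, none ∉ X.fc e)
    {t : VF F} (ht : t.1 = some w) (z : L2 T W m ⊕ Bool × E → ℝ)
    (i : SA T (VF F) m ⊕ Bool × EF X.fc F) :
    ((wp (S4 Z x₀ X w ω) (p5 Z x₀ X w)).lnr ((fp F).image (rs w false))).p z (eh X.fc w F i) =
      (xt (S0 T (VF F) m) (((X.sy F).clo (sw (tF F) t)).sm ω)).p (z ∘ eh X.fc w F) i := by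
  have fi : (S4 Z x₀ X w ω).fc (eh X.fc w F i) ∩ (fp F).image (rs w false) = _ :=
    inter_eq_left.2 (mem_fce (S := xt (sk T id m) (X2 X w ω)).1
      ((image_eh h0 ht).subset (mem_image_of_mem _ (mem_univ i))))
  refine (congrArg (fun A => (S4 Z x₀ X w ω).alt A (fun y => p5 Z x₀ X w y (eh X.fc w F i)) z)
    fi).trans ?_
  rcases i with k | ⟨c, e⟩
  · exact (alt_p5 hT hZ z rfl).trans (p_es hT _ _ k)
  · exact (alt_fc fc4 _ _ _).trans (alt_cen h h0 ht c e z)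

theorem sym0 (hT : T.Ok s N) (hZ : Z.Ok)
    (h : X.Ok (sk T cl m)) (h0 : ∀ e, none ∉ X.fc e) {t : VF F} (ht : t.1 = some w) {b : ℕ}
    {φ : (Lb T cl Unit m ⊕ E → ℝ) → ℝ} (hφ : Dg X b φ) (hb : b ≤ F.card + 1) (hω : 0 < ω)
    {η ε : ℝ} (hL : ∀ (Z : Sys T (W × Bool) Unit) c, Z.Ok → Lf (blow (cb Z id m 25 c) false) η)
    (hε : th (X2 X w ω).G⁻¹ 0 ^ 2 ^ Fintype.card (Option (W × Bool)) ≤ 1 + ε)
    (h1 : η ≤ 1) (h2 : η + 2 * ε ≤ 1) {A B : (L2 T W m ⊕ Bool × E → ℤ) → ℂ}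
    (hA : ∀ z, ‖A z‖ ≤ 1) (hB : ∀ z, ‖B z‖ ≤ 1)
    (dA : ∀ z z', (∀ i, some (w, true) ∉ (S4 Z x₀ X w ω).fc i → z i = z' i) → A z = A z')
    (dB : ∀ z z', (∀ i, some (w, false) ∉ (S4 Z x₀ X w ω).fc i → z i = z' i) → B z = B z') :
    ‖Ev (S4 Z x₀ X w ω) univ fun x => A x * (B x *
      ee (φ (ss X w (rd cl w true (toR x))) - φ (ss X w (rd cl w false (toR x)))))‖ ^ 4 ≤
      8 * ((xt (S0 T (VF F) m) (((X.sy F).clo (sw (tF F) t)).sm ω)).bias univ
          (fun x => sf X F φ (cpr (sw (tF F) t) false x) - sf X F φ (cpr (sw (tF F) t) true x)) /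
          vl (xt (S0 T (VF F) m) (((X.sy F).clo (sw (tF F) t)).sm ω)).G univ +
        2 * Fintype.card (Option (W × Bool)) *
          (4 ^ Fintype.card (Option (W × Bool)) * (η + 2 * ε)) + 3 * √(η + 2 * ε)) := by
  have p25 : (0 : ℝ) < 25 := by norm_num
  have nb : ∀ l : L2 T W m, none ∉ fo l → l.bs = none := fun l k =>
    by_contra fun a => k ((none_fo l).2 a)
  have e2 : (S4 Z x₀ X w ω).alt ((fp F).image (rs w false))
      (fun x => φ (ss X w (rd cl w true x)) - φ (ss X w (rd cl w false x))) = fun x =>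
      sf X F φ (cpr (sw (tF F) t) false (x ∘ eh X.fc w F)) -
        sf X F φ (cpr (sw (tF F) t) true (x ∘ eh X.fc w F)) := funext fun x => by
    rw [alt_fc fc4, alt_sub]
    exact (congrArg₂ (· - ·) (alt_form h0 ht hφ hb true x) (alt_form h0 ht hφ hb false x)).trans
      (by ring)
  have e3 : fce (S4 Z x₀ X w ω) ((fp F).image (rs w false)) = univ.image (eh X.fc w F) :=
    (fce_fc fc4 _).trans (image_eh h0 ht).symm
  have l0 := lf_xt (lo_cb hT (ok_z0 hT) p25) (ok_lin (ok_cb (x₀ := 0) (w := w) h hω))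
    (hL _ _ (ok_z0 hT)) h1 hε
  have hq : ∀ z i, none ∉ (S4 Z x₀ X w ω).fc i →
      (xt (cb (z0 T _) id m 25 0) (Xt.lin (cb (z0 T _) id m 25 0) (X2 X w ω))).p z i =
        (S4 Z x₀ X w ω).alt ((S4 Z x₀ X w ω).fc i) (fun z => p5 Z x₀ X w z i) z := by
    rintro z (l | e) k
    · exact (add_zero _).trans (alt_p5 hT hZ z (nb l k)).symm
    · exact alt_fc ((fc4 (Z := z0 T _) (x₀ := 0)).trans (fc4 (Z := Z) (x₀ := x₀)).symm)
        ((X2 X w ω).fc e) (fun y => (X2 X w ω).g y e) z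
  have hp : ∀ z i, none ∉ (S4 Z x₀ X w ω).fc i → p5 Z x₀ X w z i = (S4 Z x₀ X w ω).p z i := by
    rintro z (l | e) k
    exacts [if_pos (nb l k), rfl]
  have hθ : ∀ v, Aff ((S4 Z x₀ X w ω).st v)
      fun x => φ (ss X w (rd cl w true x)) - φ (ss X w (rd cl w false x)) :=
    fun v => by rw [st_fc fc4]; exact (aff_rd hφ.aff v).sub (aff_rd hφ.aff v)
  have h3 := gb (lo_xt (lo_cb hT hZ p25) (ok_cb h hω)) (ok_p5 hT hZ h hω)
    (fun i => by rcases i with l | e; exacts [fo_ne hT l, (h.ne e.2).image _])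
    (a := some (w, false)) (b := some (w, true)) (s := none) (by simp)
    (I := (fp F).image (rs w false))
    (mem_image.2 ⟨some w, ht ▸ t.2, by simp [rs, rv]⟩) (mem_image.2 ⟨none, mem_insert_self _ _, rfl⟩)
    (by simp [rs]) hp hq (lf_xt (lo_cb hT hZ p25) (ok_cb h hω) (hL _ _ hZ) h1 hε) l0 h2
    (fun v _ => hθ v) (fun z z' k => by
      have : ∀ c, rd cl w c z = rd cl w c z' := fun c => funext fun j =>
        rd_congr (ω := ω) (X := X) fun i hi _ => k i fun a => by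
          obtain ⟨v, -, hv⟩ := mem_image.1 (hi.subset a)
          exact Option.some_ne_none _ hv
      simp only [this])
    (by
      rw [e2, e3]
      exact fun z z' k => by
        beta_reduce
        rw [show z ∘ eh X.fc w F = z' ∘ eh X.fc w F from
          funext fun i => k _ (mem_image_of_mem _ (mem_univ i))]) hA hB dA dB
  rwa [e2, e3, P057MA.vl_image eh_inj fun i _ j _ => G_eh t i j, P057MA.bias_image
    (S' := (wp (S4 Z x₀ X w ω) (p5 Z x₀ X w)).lnr _) eh_inj (fun i _ j _ => G_eh t i j) (fun z i _ => p_eh hT hZ h h0 ht z i)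
    fun x => sf X F φ (cpr (sw (tF F) t) false x) - sf X F φ (cpr (sw (tF F) t) true x)] at h3

theorem vol_X2 {τ : ℕ} {Y : ℝ} (h : X.Ok (sk T cl m)) (hs : X.Sz τ Y) (hY : 1 ≤ Y) :
    vol (X2 X w (exp (-(3 * Y)))).G ≤ exp (39 * Y ^ 2) := by
  have h1 : (Fintype.card (Bool × E) : ℝ) ≤ 2 * Y := by
    rw [Fintype.card_prod, Fintype.card_bool]; push_cast; linarith [hs.card]
  have h2 := (vol_le_th_zero (P057RL.pd_cG (R := Bool) h.pd)).trans
    (P057TE.th_sep (P057RL.pd_cG (R := Bool) h.pd) 0 le_rfl (fun z hz _ => by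
      obtain ⟨⟨c, e⟩, he⟩ := Function.ne_iff.1 hz
      rw [P057RL.qq_cG]
      exact (hs.sep (fun k => z (c, k)) (Function.ne_iff.2 ⟨e, he⟩)).trans (single_le_sum
        (f := fun a => qq X.G fun k => toR z (a, k))
        (fun _ _ => qq_nonneg h.pd.posSemidef _) (mem_univ c))) (by simp [toR_zero]))
  have h3 : (√(exp (-(3 * Y))))⁻¹ = exp (3 * Y / 2) := by
    rw [← exp_half, ← exp_neg]; congr 1; ring
  have h4 : (0 : ℝ) ≤ Fintype.card (Bool × E) := Nat.cast_nonneg _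
  change vol (exp (-(3 * Y)) • cG Bool X.G) ≤ _
  rw [vol_smul (exp_pos _), h3, ← exp_nat_mul]
  rw [max_eq_left zero_le_one, one_mul] at h2
  refine (mul_le_mul_of_nonneg_left h2 (exp_pos _).le).trans ?_
  rw [← exp_add]
  exact exp_le_exp.2 (by nlinarith)

theorem th_X2 {τ : ℕ} {Y : ℝ} (h : X.Ok (sk T cl m)) (hs : X.Sz τ Y) (hY : 48 ≤ Y) {k : ℕ}
    (hk : (k : ℝ) ≤ 3 * Y) :
    th (X2 X w (exp (-(3 * Y)))).G⁻¹ 0 ^ 2 ^ k ≤ 1 + exp (-Y ^ 3) := by
  have h1 := P057RL.th_cG (R := Bool) (h.pd.smul (exp_pos (-(3 * Y))))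
  rw [← P057RL.smul_cG, Fintype.card_bool] at h1
  have h2 := (fine h.pd (by linarith) hs.cx).trans ((add_comm _ _).le.trans (add_one_le_exp _))
  have h3 := pow_le_pow_left₀ (th_nonneg _ _) (h1.trans (pow_le_pow_left₀ (th_nonneg _ _) h2 2))
    (2 ^ k)
  rw [← pow_mul, ← exp_nat_mul] at h3
  have h4 : ((2 * 2 ^ k : ℕ) : ℝ) ≤ exp (3 * Y + 1) := by
    have := pow_le_pow_left₀ zero_le_two (one_add_one_eq_two (R := ℝ) ▸ add_one_le_exp 1) (k + 1)
    rw [← exp_nat_mul, pow_succ'] at this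
    push_cast at this ⊢
    exact this.trans (exp_le_exp.2 (by linarith))
  have h5 := pow_div_factorial_le_exp Y (by linarith) 4
  norm_num [Nat.factorial] at h5
  have h6 : ((2 * 2 ^ k : ℕ) : ℝ) * exp (-exp Y) ≤ exp (-Y ^ 3 - 1) := by
    refine (mul_le_mul_of_nonneg_right h4 (exp_pos _).le).trans ?_
    rw [← exp_add]
    refine exp_le_exp.2 ?_
    nlinarith [pow_le_pow_left₀ (by norm_num) hY 2, pow_pos (by linarith : 0 < Y) 3]
  have h7 : exp (-Y ^ 3 - 1) ≤ 1 := exp_le_one_iff.2 (by nlinarith [pow_pos (by linarith : 0 < Y) 3])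
  have h8 := abs_exp_sub_one_le (x := exp (-Y ^ 3 - 1)) (by rwa [abs_of_pos (exp_pos _)])
  have h9 : exp (-Y ^ 3) = exp (-Y ^ 3 - 1) * exp 1 := by rw [← exp_add]; congr 1; ring
  rw [abs_of_pos (exp_pos (-Y ^ 3 - 1))] at h8
  refine h3.trans ((exp_le_exp.2 h6).trans ?_)
  nlinarith [(abs_le.1 h8).2, add_one_le_exp 1, exp_pos (-Y ^ 3 - 1)]

theorem sym_num {Y v e b : ℝ} {k : ℕ} (hY : 700 ≤ Y) (hk : (k : ℝ) ≤ 3 * Y) (v0 : 0 < v)
    (hv : v ≤ exp (39 * Y ^ 2)) (he : exp (-(3 * Y)) ≤ e)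
    (h : (exp (-8) / v * e) ^ 4 ≤ 8 * (b + 2 * k * (4 ^ k * (exp (-Y ^ 3) + 2 * exp (-Y ^ 3))) +
      3 * √(exp (-Y ^ 3) + 2 * exp (-Y ^ 3)))) : exp (-Y ^ 3) ≤ b := by
  have y2 : 700 * Y ≤ Y ^ 2 := by nlinarith
  have y3 : 700 * Y ^ 2 ≤ Y ^ 3 := by nlinarith
  have h1 : exp (-(40 * Y ^ 2)) ≤ exp (-8) / v * e := by
    refine le_trans ?_ (mul_le_mul (div_le_div_of_nonneg_left (exp_pos _).le v0 hv) he
      (exp_pos _).le (by positivity))
    rw [← exp_sub, ← exp_add]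
    exact exp_le_exp.2 (by linarith)
  have h2 := (pow_le_pow_left₀ (exp_pos _).le h1 4).trans h
  rw [← exp_nat_mul] at h2
  set u := exp (-Y ^ 3 / 2) with hu
  have u0 : 0 < u := exp_pos _
  have e1 : exp (-Y ^ 3) = u * u := by rw [← exp_add]; congr 1; ring
  have h3 : √(exp (-Y ^ 3) + 2 * exp (-Y ^ 3)) ≤ 2 * u :=
    sqrt_le_iff.2 ⟨by positivity, by rw [e1]; nlinarith⟩
  have h4 : (k : ℝ) * 4 ^ k * u ≤ 1 := by
    have a1 : (4 : ℝ) ≤ exp 2 := by
      have := add_one_le_exp (1 : ℝ)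
      rw [show (2 : ℝ) = 1 + 1 by norm_num, exp_add]; nlinarith
    have a2 := pow_le_pow_left₀ (by norm_num) a1 k
    rw [← exp_nat_mul] at a2
    have a3 : (k : ℝ) ≤ exp k := by linarith [add_one_le_exp (k : ℝ)]
    refine (mul_le_mul_of_nonneg_right (mul_le_mul a3 a2 (by positivity) (exp_pos _).le)
      u0.le).trans ?_
    rw [← exp_add, ← exp_add]
    exact exp_le_one_iff.2 (by linarith)
  have h5 : 104 * u ≤ exp ((4 : ℕ) * -(40 * Y ^ 2)) := by
    have a1 : (104 : ℝ) ≤ exp Y := by linarith [add_one_le_exp Y]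
    refine (mul_le_mul_of_nonneg_right a1 u0.le).trans ?_
    rw [← exp_add]
    exact exp_le_exp.2 (by push_cast; linarith)
  have h6 : u ≤ 1 := exp_le_one_iff.2 (by linarith)
  rw [e1] at h2 h3 ⊢
  nlinarith [mul_le_mul_of_nonneg_right h4 u0.le, mul_le_mul_of_nonneg_right h6 u0.le]

theorem symm (s : ℕ) (h1 : SYM1 s) : SYM s := by
  obtain ⟨c, h1⟩ := h1
  refine ⟨c + (s + 1) ^ s + 700, fun N T C W E _ _ _ _ cl m b τ Z X n φ Y hT hZ hX hs h0 hφ hn hW
    hc hL hC F hF t ht => ?_⟩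
  push_cast at hc
  have p1 : (0 : ℝ) ≤ c := Nat.cast_nonneg _
  have p2 : (0 : ℝ) ≤ (s + 1) ^ s := by positivity
  have y1 : 1 ≤ Y := by linarith
  obtain ⟨w, hw⟩ := Option.ne_none_iff_exists'.1 fun e : t.1 = none => ht (Subtype.ext e)
  have pw : ∀ k ≤ c + (s + 1) ^ s + 700, Y ^ k ≤ Y ^ (c + (s + 1) ^ s + 700) :=
    fun k => pow_le_pow_right₀ y1
  obtain ⟨Z', x₀, A, n', hZ', a1, a2, a3, a4⟩ := h1 N T C W E cl m (b + 1) Z X n φ Y w hT hZ hX h0 hφ
    hn hW (by linarith) (P057RG.lfd_mono hT hL le_rfl (pw _ (by omega)) (pw _ (by omega))) hC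
  have hk : (Fintype.card (Option (W × Bool)) : ℝ) ≤ 3 * Y := by
    rw [Fintype.card_option, Fintype.card_prod, Fintype.card_bool]; push_cast; linarith
  have hi := norm_ins (w := w) (A := A) (n := n') hX (exp_pos (-(3 * Y))) (B := exp Y)
    (by rw [← exp_add]; exact exp_le_one_iff.2 (by linarith)) a1 a3
  have y3 : 2 ≤ Y ^ 3 := by nlinarith [pow_le_pow_right₀ y1 (by norm_num : 1 ≤ 3)]
  have e3 : 3 * exp (-Y ^ 3) ≤ 1 := by
    rw [exp_neg, ← div_eq_mul_inv, div_le_one (exp_pos _)]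
    linarith [add_one_le_exp (Y ^ 3)]
  have h2 := sym0 (x₀ := x₀) hT hZ' hX h0 hw hφ (by
      simp only [tops, mem_filter] at hF; rw [hF.2.1]) (exp_pos (-(3 * Y))) (η := exp (-Y ^ 3))
    (fun Z c hZ => lf_cb hT hZ (by norm_num) (by omega : m ≤ m - 1 + 1)
      (P057RG.lfd_mono hT hL le_rfl (pw 2 (by omega)) (pw 3 (by omega))) (Nat.le_floor (by
        rw [Fintype.card_prod, Fintype.card_bool]; push_cast; nlinarith)) (by
        have b1 := Nat.floor_le (sq_nonneg Y)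
        have b2 := pow_div_factorial_le_exp (Y ^ 3) (by positivity) 2
        norm_num [Nat.factorial] at b2
        have b3 : Y ≤ Y ^ 3 := le_self_pow₀ y1 (by norm_num)
        have b4 : ((⌊Y ^ 2⌋₊ : ℝ) + 1) * (s + 1) ^ s ≤ (2 * Y ^ 2) * Y :=
          mul_le_mul (by nlinarith) (by linarith) p2 (by positivity)
        rw [le_div_iff₀ (by positivity)]
        nlinarith))
    (th_X2 hX hs (by linarith) hk) (by linarith [exp_pos (-Y ^ 3)]) (by linarith) (hi false) (hi true)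
    (ins_congr hX h0 a2 false) (ins_congr hX h0 a2 true)
  have v0 := vol_pos (ok_X2 (w := w) hX (exp_pos (-(3 * Y)))).pd
  rw [ev_ins hT hZ' hX (exp_pos _) hi, norm_mul, Complex.norm_real,
    Real.norm_of_nonneg (by positivity)] at h2
  have h3 := sym_num (by linarith) hk v0 (vol_X2 hX hs y1) a4 h2
  obtain ⟨s1, -⟩ := syf s N T C W E cl m τ X Y F hT hX hs h0
  exact (le_div_iff₀ (vl_pos (P057CO.ok_xt (P057TE.sym_ok hT (fun _ _ _ _ => trivial) (by norm_num))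
    (P057RL.ok_sm (P057RL.ok_clt s1 _ 0) (exp_pos _))).pd _)).1
    ((exp_le_exp.2 (neg_le_neg (pw 3 (by omega)))).trans h3)

end

end Vale.Agent.P057SY
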